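import Crest.Agent.R324.Net

set_option autoImplicit false
set_option linter.unusedSectionVars false

/-! The basic shear network on triples. -/

namespace Crest.Agent.R324

open Finset Matrix Kronecker

/-- Three-element subsets. -/
abbrev Tri (h : ℕ) : Type := {S : Finset (Fin h) // S.card = 3}

/-- Pairs of triples with even intersection. -/
abbrev Orth (h : ℕ) : Type := {p : Tri h × Tri h // Even (p.1.1 ∩ p.2.1).card}

/-- Auxiliary wires. -/
abbrev Aux (h : ℕ) : Type := Orth h ⊕ Fin h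

/-- Wires of the basic network. -/
abbrev W0 (h : ℕ) : Type := Tri h ⊕ Tri h ⊕ Aux h

variable {h : ℕ}

/-- Indicator vector of a triple. -/
def ind (S : Tri h) : Fin h → ZMod 2 := fun i => if i ∈ S.1 then 1 else 0

/-- Projector on the indicator vector. -/
def pr (S : Tri h) : Matrix (Fin h) (Fin h) (ZMod 2) := vecMulVec (ind S) (ind S)

lemma ind_dot (S T : Tri h) : ind S ⬝ᵥ ind T = ((S.1 ∩ T.1).card : ZMod 2) := by
  have : ∀ i, ind S i * ind T i = if i ∈ S.1 ∩ T.1 then 1 else 0 := fun i => by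
    by_cases h1 : i ∈ S.1 <;> by_cases h2 : i ∈ T.1 <;> simp [ind, h1, h2]
  simp only [dotProduct, this]
  rw [Finset.sum_boole]
  congr 2
  ext i; simp

lemma pr_mul (S T : Tri h) :
    pr S * pr T = ((S.1 ∩ T.1).card : ZMod 2) • vecMulVec (ind S) (ind T) := by
  rw [← ind_dot]
  ext i j
  simp only [pr, mul_apply, vecMulVec_apply, dotProduct, Matrix.smul_apply, smul_eq_mul, Finset.sum_mul]
  exact Finset.sum_congr rfl fun k _ => by ring

lemma pr_isPr (S : Tri h) : IsPr (pr S) := by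
  refine ⟨by simp [pr], ?_⟩
  rw [pr_mul, Finset.inter_self, S.2]
  have : ((3 : ℕ) : ZMod 2) = 1 := by decide
  rw [this, one_smul]; rfl

lemma pr_orth (a : Orth h) : pr a.1.1 * pr a.1.2 = 0 := by
  rw [pr_mul, (ZMod.natCast_eq_zero_iff_even).2 a.2, zero_smul]

lemma pr_le (a : Orth h) : PLe (pr a.1.1) (1 - pr a.1.2) :=
  ⟨pr_isPr _, (pr_isPr _).one_sub, by rw [mul_sub, pr_orth, mul_one, sub_zero]⟩

/-- first bank -/
def iX : Tri h → W0 h := Sum.inl
/-- second bank -/
def iY : Tri h → W0 h := fun T => Sum.inr (Sum.inl T)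
/-- side wires -/
def iA : Orth h → W0 h := fun a => Sum.inr (Sum.inr (Sum.inl a))
/-- central wires -/
def iC : Fin h → W0 h := fun i => Sum.inr (Sum.inr (Sum.inr i))

/-- frames by wire class -/
def fW (x y : Tri h → Matrix (Fin h) (Fin h) (ZMod 2)) (a : Orth h → Matrix (Fin h) (Fin h) (ZMod 2))
    (c : Matrix (Fin h) (Fin h) (ZMod 2)) : W0 h → Matrix (Fin h) (Fin h) (ZMod 2) :=
  Sum.elim x (Sum.elim y (Sum.elim a fun _ => c))

/-- frames at step 1 -/
def P1 (h : ℕ) : W0 h → Matrix (Fin h) (Fin h) (ZMod 2) :=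
  fW pr (fun _ => 0) (fun _ => 0) 0
/-- frames at step 2 -/
def P2 (h : ℕ) : W0 h → Matrix (Fin h) (Fin h) (ZMod 2) :=
  fW pr (fun _ => 0) (fun a => pr a.1.1) 0
/-- frames at step 3 -/
def P3 (h : ℕ) : W0 h → Matrix (Fin h) (Fin h) (ZMod 2) :=
  fW (fun _ => 1) (fun _ => 0) (fun a => pr a.1.1) 1
/-- frames at step 4 -/
def P4 (h : ℕ) : W0 h → Matrix (Fin h) (Fin h) (ZMod 2) :=
  fW (fun _ => 1) (fun _ => 0) (fun a => pr a.1.1) 0
/-- frames at step 5 -/
def P5 (h : ℕ) : W0 h → Matrix (Fin h) (Fin h) (ZMod 2) :=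
  fW (fun _ => 1) (fun T => 1 - pr T) (fun a => 1 - pr a.1.2) 0
/-- frames at step 6 -/
def P6 (h : ℕ) : W0 h → Matrix (Fin h) (Fin h) (ZMod 2) :=
  fW (fun _ => 1) (fun T => 1 - pr T) (fun _ => 1) 1

lemma base_generic {G1 G2 G3 G4 G5 G6 : Matrix (W0 h) (W0 h) ℂ} (h1 : Resp G1 (P1 h))
    (h2 : Resp G2 (P2 h)) (h3 : Resp G3 (P3 h)) (h4 : Resp G4 (P4 h)) (h5 : Resp G5 (P5 h))
    (h6 : Resp G6 (P6 h)) :
    Net (P1 h) (P6 h) (G6 * (G5 * (G4 * (G3 * (G2 * G1))))) (h * (2 * h)) := by
  have n1 : Net (P1 h) (P1 h) G1 0 := Net.gate h1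
  have n2 : Net (P1 h) (P2 h) G2 0 := Net.upGate (by
    rintro (S | T | a | i)
    · exact Or.inl rfl
    · exact Or.inl rfl
    · exact Or.inr (pr_isPr _).zero_le
    · exact Or.inl rfl) h2
  have n3 : Net (P2 h) (P3 h) G3 0 := Net.upGate (by
    rintro (S | T | a | i)
    · exact Or.inr (pr_isPr _).le_one
    · exact Or.inl rfl
    · exact Or.inl rfl
    · exact Or.inr IsPr.one.zero_le) h3
  have n4 : Net (P3 h) (P4 h) 1 _ :=
    Net.edge (Sum.elim (fun _ => 0) (Sum.elim (fun _ => 0) (Sum.elim (fun _ => 0) fun _ => 2 * h)))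
      (by
        rintro (S | T | a | i)
        · exact Or.inl rfl
        · exact Or.inl rfl
        · exact Or.inl rfl
        · refine Or.inr (Or.inr ⟨IsPr.one.zero_le, ?_⟩)
          exact Nat.mul_le_mul_left _ (rank_le_width _))
  have n4' : Net (P3 h) (P4 h) G4 (h * (2 * h)) := by
    have := n4.comp (Net.gate h4)
    simpa [Fintype.sum_sum_type] using this
  have n5 : Net (P4 h) (P5 h) G5 0 := Net.upGate (by
    rintro (S | T | a | i)
    · exact Or.inl rfl
    · exact Or.inr (pr_isPr _).one_sub.zero_le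
    · exact Or.inr (pr_le a)
    · exact Or.inl rfl) h5
  have n6 : Net (P5 h) (P6 h) G6 0 := Net.upGate (by
    rintro (S | T | a | i)
    · exact Or.inl rfl
    · exact Or.inl rfl
    · exact Or.inr (pr_isPr _).one_sub.le_one
    · exact Or.inr IsPr.one.zero_le) h6
  simpa using ((((n1.comp n2).comp n3).comp n4').comp n5).comp n6

/-- side wires to second bank -/
noncomputable def mA (h : ℕ) : Matrix (Tri h) (Orth h) ℂ :=
  Matrix.of fun T a => if a.1.2 = T then -((((a.1.1.1 ∩ a.1.2.1).card : ℂ) - 1) / 2) else 0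
/-- first bank to side wires -/
noncomputable def mB (h : ℕ) : Matrix (Orth h) (Tri h) ℂ :=
  Matrix.of fun a S => if a.1.1 = S then 1 else 0
/-- central wires to second bank -/
noncomputable def mC (h : ℕ) : Matrix (Tri h) (Fin h) ℂ :=
  Matrix.of fun T i => ((if i ∈ T.1 then 1 else 0) - 1 / 3) / 2
/-- first bank to central wires -/
noncomputable def mD (h : ℕ) : Matrix (Fin h) (Tri h) ℂ :=
  Matrix.of fun i S => if i ∈ S.1 then 1 else 0

lemma mC_mul_mD (T S : Tri h) :
    (mC h * mD h) T S = (((S.1 ∩ T.1).card : ℂ) - 1) / 2 := by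
  have : ∀ i, mC h T i * mD h i S =
      (if i ∈ S.1 ∩ T.1 then 1 else 0) / 2 - (if i ∈ S.1 then 1 else 0) / 6 := fun i => by
    by_cases h1 : i ∈ S.1 <;> by_cases h2 : i ∈ T.1 <;> simp [mC, mD, h1, h2] <;> norm_num
  simp only [mul_apply, this, Finset.sum_sub_distrib, ← Finset.sum_div, Finset.sum_boole,
    Finset.filter_mem_eq_inter, Finset.univ_inter, S.2]
  push_cast
  ring

lemma mA_mul_mB (T S : Tri h) :
    (mA h * mB h) T S =
      if Even (S.1 ∩ T.1).card then -((((S.1 ∩ T.1).card : ℂ) - 1) / 2) else 0 := by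
  rw [mul_apply]
  split_ifs with he
  · rw [Finset.sum_eq_single ⟨(S, T), he⟩]
    · simp [mA, mB]
    · rintro ⟨⟨S', T'⟩, h'⟩ _ hne
      simp only [mA, mB, of_apply]
      split_ifs with h1 h2
      · subst h1 h2; exact absurd rfl hne
      all_goals simp
    · simp
  · refine Finset.sum_eq_zero ?_
    rintro ⟨⟨S', T'⟩, h'⟩ _
    simp only [mA, mB, of_apply]
    split_ifs with h1 h2
    · subst h1 h2; exact absurd h' he
    all_goals simp

lemma key_identity : mA h * mB h + mC h * mD h = 1 := by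
  ext T S
  rw [Matrix.add_apply, mA_mul_mB, mC_mul_mD]
  by_cases hST : T = S
  · subst hST
    rw [Finset.inter_self, T.2, if_neg (by decide), one_apply_eq]
    norm_num
  · rw [one_apply_ne hST]
    split_ifs with he
    · ring
    · have h1 : (S.1 ∩ T.1).card ≤ 3 := (Finset.card_le_card Finset.inter_subset_left).trans S.2.le
      have h2 : (S.1 ∩ T.1).card ≠ 3 := by
        intro h3
        apply hST
        have e1 := Finset.eq_of_subset_of_card_le (Finset.inter_subset_left (s₁ := S.1) (s₂ := T.1))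
          (by rw [h3, S.2])
        have e2 := Finset.eq_of_subset_of_card_le (Finset.inter_subset_right (s₁ := S.1) (s₂ := T.1))
          (by rw [h3, T.2])
        exact Subtype.ext (e2.symm.trans e1)
      have h4 : (S.1 ∩ T.1).card = 1 := by
        rw [Nat.even_iff] at he
        omega
      rw [h4]; simp

lemma comm_identity' {R : Type} [Ring R] (a b : R) (ha : a * a = 0) (hb : b * b = 0)
    (hab : a * b = 0) : (1 + b) * (1 - a) * (1 - b) * (1 + a) = 1 - b * a := by
  have : (1 + b) * (1 - a) * (1 - b) * (1 + a) = 1 - b * a - a * a + a * b + a * b * a - b * b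
      - b * b * a - b * (a * a) + b * (a * b) + b * (a * b) * a := by noncomm_ring
  rw [this, ha, hb, hab]
  simp

lemma base_both :
    Net (P1 h) (P6 h) (1 + lift iY iX 1) (h * (2 * h)) ∧
      Net (P1 h) (P6 h) (1 - lift iX iY 1) (h * (2 * h)) := by
  set α : Matrix (W0 h) (W0 h) ℂ := lift iY iA (mA h) with hα
  set β : Matrix (W0 h) (W0 h) ℂ := lift iA iX (mB h) with hβ
  set γ : Matrix (W0 h) (W0 h) ℂ := lift iY iC (mC h) with hγ
  set δ : Matrix (W0 h) (W0 h) ℂ := lift iC iX (mD h) with hδ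
  have rα1 : Resp α (P1 h) := Resp.lift fun _ _ _ => rfl
  have rγ1 : Resp γ (P1 h) := Resp.lift fun _ _ _ => rfl
  have rβ2 : Resp β (P2 h) := Resp.lift fun a S h0 => by
    have : a.1.1 = S := by
      by_contra hc
      exact h0 (by simp [mB, hc])
    subst this; rfl
  have rδ3 : Resp δ (P3 h) := Resp.lift fun _ _ _ => rfl
  have rγ4 : Resp γ (P4 h) := Resp.lift fun _ _ _ => rfl
  have rα5 : Resp α (P5 h) := Resp.lift fun T a h0 => by
    have : a.1.2 = T := by
      by_contra hc
      exact h0 (by simp [mA, hc])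
    subst this; rfl
  have rβ6 : Resp β (P6 h) := Resp.lift fun _ _ _ => rfl
  have rδ6 : Resp δ (P6 h) := Resp.lift fun _ _ _ => rfl
  have hαα : α * α = 0 := lift_mul_lift_disj _ _ (by simp [iA, iY]) _ _
  have hαγ : α * γ = 0 := lift_mul_lift_disj _ _ (by simp [iA, iY]) _ _
  have hγα : γ * α = 0 := lift_mul_lift_disj _ _ (by simp [iC, iY]) _ _
  have hγγ : γ * γ = 0 := lift_mul_lift_disj _ _ (by simp [iC, iY]) _ _
  have hββ : β * β = 0 := lift_mul_lift_disj _ _ (by simp [iA, iX]) _ _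
  have hβδ : β * δ = 0 := lift_mul_lift_disj _ _ (by simp [iC, iX]) _ _
  have hδβ : δ * β = 0 := lift_mul_lift_disj _ _ (by simp [iA, iX]) _ _
  have hδδ : δ * δ = 0 := lift_mul_lift_disj _ _ (by simp [iC, iX]) _ _
  have hβα : β * α = 0 := lift_mul_lift_disj _ _ (by simp [iY, iX]) _ _
  have hβγ : β * γ = 0 := lift_mul_lift_disj _ _ (by simp [iY, iX]) _ _
  have hδα : δ * α = 0 := lift_mul_lift_disj _ _ (by simp [iY, iX]) _ _
  have hδγ : δ * γ = 0 := lift_mul_lift_disj _ _ (by simp [iY, iX]) _ _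
  have hαδ : α * δ = 0 := lift_mul_lift_disj _ _ (by simp [iA, iC]) _ _
  have hγβ : γ * β = 0 := lift_mul_lift_disj _ _ (by simp [iA, iC]) _ _
  have hA : Function.Injective (iA (h := h)) := fun a b hab => by simpa [iA] using hab
  have hC : Function.Injective (iC (h := h)) := fun a b hab => by simpa [iC] using hab
  have hab : (α + γ) * (β + δ) = lift iY iX 1 := by
    rw [add_mul, mul_add, mul_add, hαδ, hγβ, add_zero, zero_add, lift_mul_lift _ _ hA,
      lift_mul_lift _ _ hC, ← lift_add, key_identity]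
  have haa : (α + γ) * (α + γ) = 0 := by simp [add_mul, mul_add, hαα, hαγ, hγα, hγγ]
  have hbb : (β + δ) * (β + δ) = 0 := by simp [add_mul, mul_add, hββ, hβδ, hδβ, hδδ]
  have hba : (β + δ) * (α + γ) = 0 := by simp [add_mul, mul_add, hβα, hβγ, hδα, hδγ]
  constructor
  · have := base_generic ((Resp.one _).sub (rα1.add rγ1)) ((Resp.one _).add rβ2)
      ((Resp.one _).add rδ3) ((Resp.one _).add rγ4) ((Resp.one _).add rα5)
      ((Resp.one _).sub (rβ6.add rδ6))
    convert this using 1
    rw [← hab, ← comm_identity _ _ haa hbb hba]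
    have e1 : 1 + (α + γ) = (1 + α) * (1 + γ) := by
      rw [add_mul, mul_add, mul_add, hαγ]; simp only [one_mul, mul_one]; abel
    have e2 : 1 + (β + δ) = (1 + δ) * (1 + β) := by
      rw [add_mul, mul_add, mul_add, hδβ]; simp only [one_mul, mul_one]; abel
    rw [e1, e2]
    simp only [mul_assoc]
  · have := base_generic ((Resp.one _).add (rα1.add rγ1).transpose) ((Resp.one _).sub rβ2.transpose)
      ((Resp.one _).sub rδ3.transpose) ((Resp.one _).sub rγ4.transpose)
      ((Resp.one _).sub rα5.transpose) ((Resp.one _).add (rβ6.add rδ6).transpose)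
    convert this using 1
    have hab' : lift iX iY 1 = (β + δ)ᵀ * (α + γ)ᵀ := by
      rw [← transpose_mul, hab, lift_transpose, transpose_one]
    rw [hab', ← comm_identity' _ _ (by rw [← transpose_mul, haa, transpose_zero])
      (by rw [← transpose_mul, hbb, transpose_zero]) (by rw [← transpose_mul, hba, transpose_zero])]
    have e1 : 1 - (α + γ)ᵀ = (1 - αᵀ) * (1 - γᵀ) := by
      rw [sub_mul, mul_sub, mul_sub, ← transpose_mul γ α, hγα, transpose_add]
      simp only [one_mul, mul_one, transpose_zero]; abel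
    have e2 : 1 - (β + δ)ᵀ = (1 - δᵀ) * (1 - βᵀ) := by
      rw [sub_mul, mul_sub, mul_sub, ← transpose_mul β δ, hβδ, transpose_add]
      simp only [one_mul, mul_one, transpose_zero]; abel
    rw [e1, e2]
    simp only [mul_assoc]

end Crest.Agent.R324
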