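import Crest.Agent.R324.QBinom

set_option autoImplicit false
set_option linter.unusedSectionVars false

/-! Coprime factorisation of the Fourier matrix, choice of a smooth length, chirp reduction. -/

namespace Crest.Agent.R324

open Finset Matrix Kronecker

lemma dft_coprime {a b : ℕ} (hab : Nat.Coprime a b) (ha : a ≠ 0) (hb : b ≠ 0) {r r' L : ℕ}
    (h1 : ∀ ω : ℂ, IsPrimitiveRoot ω a → Dep r L (dft ω a))
    (h2 : ∀ ω : ℂ, IsPrimitiveRoot ω b → Dep r' L (dft ω b)) (ω : ℂ)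
    (hω : IsPrimitiveRoot ω (a * b)) : Dep (r + r') L (dft ω (a * b)) := by
  have hpos : 0 < a * b := Nat.pos_of_ne_zero (mul_ne_zero ha hb)
  have hA : IsPrimitiveRoot (ω ^ b) a := hω.pow hpos (mul_comm _ _)
  have hB : IsPrimitiveRoot (ω ^ a) b := hω.pow hpos rfl
  let f : Fin (a * b) → Fin a × Fin b := fun k =>
    (⟨k.val % a, Nat.mod_lt _ (Nat.pos_of_ne_zero ha)⟩, ⟨k.val % b, Nat.mod_lt _ (Nat.pos_of_ne_zero hb)⟩)
  have hf : Function.Bijective f := by
    rw [Fintype.bijective_iff_injective_and_card]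
    refine ⟨fun k k' h => ?_, by simp⟩
    simp only [f, Prod.mk.injEq, Fin.mk.injEq] at h
    exact Fin.ext (Nat.ModEq.eq_of_lt_of_lt ((Nat.modEq_and_modEq_iff_modEq_mul hab).1 h) k.2 k'.2)
  let e := Equiv.ofBijective f hf
  have hrow : ∀ j : Fin (a * b), ∃ p : Fin a × Fin b,
      ω ^ j.val = (ω ^ b) ^ p.1.val * (ω ^ a) ^ p.2.val := by
    intro j
    obtain ⟨u, hu, hu'⟩ := Nat.exists_mul_mod_eq_of_coprime j.val hab.symm ha
    obtain ⟨v, hv, hv'⟩ := Nat.exists_mul_mod_eq_of_coprime j.val hab hb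
    refine ⟨(⟨u, hu⟩, ⟨v, hv⟩), ?_⟩
    have : b * u + a * v ≡ j.val [MOD a * b] := by
      refine (Nat.modEq_and_modEq_iff_modEq_mul hab).1 ⟨?_, ?_⟩
      · unfold Nat.ModEq; rw [Nat.add_mul_mod_self_left, hu']
      · unfold Nat.ModEq; rw [add_comm, Nat.add_mul_mod_self_left, hv']
    rw [← pow_mul, ← pow_mul, ← pow_add, pow_eq_pow_mod _ hω.pow_eq_one,
      pow_eq_pow_mod (b * u + a * v) hω.pow_eq_one, this]
  choose π hπ using hrow
  have := ((((h1 _ hA).kron (h2 _ hB)).reindex e).rowsel fun j => e.symm (π j))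
  convert this using 1
  ext j k
  simp only [submatrix_apply, Equiv.apply_symm_apply, id, kroneckerMap_apply, dft, of_apply]
  have e1 : (e k).1.val = k.val % a := rfl
  have e2 : (e k).2.val = k.val % b := rfl
  rw [e1, e2, pow_mul, hπ, mul_pow, pow_mul, pow_mul,
    ← pow_eq_pow_mod k.val (by rw [← pow_mul, mul_comm, pow_mul, hA.pow_eq_one, one_pow]),
    ← pow_eq_pow_mod k.val (by rw [← pow_mul, mul_comm, pow_mul, hB.pow_eq_one, one_pow])]

lemma dft_prod (f : ℕ → ℕ) (ℓ : ℕ) (S : Finset ℕ) (h0 : ∀ p ∈ S, f p ≠ 0)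
    (hz : ∀ p ∈ S, f p ≤ 2 ^ ℓ) (hc : ∀ p ∈ S, ∀ q ∈ S, p ≠ q → Nat.Coprime (f p) (f q)) :
    ∀ ω : ℂ, IsPrimitiveRoot ω (∏ p ∈ S, f p) →
      Dep S.card (800000 * (ℓ + 1) ^ 2) (dft ω (∏ p ∈ S, f p)) := by
  induction S using Finset.induction_on with
  | empty =>
    intro ω _
    rw [Finset.prod_empty]
    have : dft ω 1 = 1 := by
      ext a b; rw [Subsingleton.elim a 0, Subsingleton.elim b 0]; simp [dft]
    rw [this]
    exact Dep.one _ _
  | insert a S ha ih =>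
    rw [Finset.prod_insert ha, Finset.card_insert_of_notMem ha, add_comm]
    refine dft_coprime ?_ (h0 _ (by simp)) ?_ (fun ω hω => dft_dep hω (hz _ (by simp)))
      (ih (fun p hp => h0 p (by simp [hp])) (fun p hp => hz p (by simp [hp]))
        (fun p hp q hq => hc p (by simp [hp]) q (by simp [hq])))
    · exact Nat.Coprime.prod_right fun q hq =>
        hc a (by simp) q (by simp [hq]) (by rintro rfl; exact ha hq)
    · exact Finset.prod_ne_zero_iff.2 fun p hp => h0 p (by simp [hp])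

lemma exists_subprod (f : ℕ → ℕ) (z t : ℕ) (ht : 1 ≤ t) (S : Finset ℕ) (hz : ∀ p ∈ S, f p ≤ z)
    (h : t < ∏ p ∈ S, f p) : ∃ S' ⊆ S, ∏ p ∈ S', f p ≤ t ∧ t < z * ∏ p ∈ S', f p := by
  induction S using Finset.induction_on with
  | empty => simp at h; omega
  | insert a S ha ih =>
    by_cases h1 : t < ∏ p ∈ S, f p
    · obtain ⟨S', h2, h3⟩ := ih (fun p hp => hz p (by simp [hp])) h1
      exact ⟨S', h2.trans (Finset.subset_insert _ _), h3⟩
    · refine ⟨S, Finset.subset_insert _ _, not_lt.1 h1, ?_⟩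
      rw [Finset.prod_insert ha] at h
      exact h.trans_le (Nat.mul_le_mul_right _ (hz a (by simp)))

lemma exists_two_pow_mul {P t : ℕ} (hP : 1 ≤ P) (hPt : P ≤ t) :
    ∃ a, t ≤ 2 ^ a * P ∧ 2 ^ a * P < 2 * t := by
  have hex : ∃ a, t ≤ 2 ^ a * P :=
    ⟨t, (Nat.lt_two_pow_self).le.trans (Nat.le_mul_of_pos_right _ hP)⟩
  classical
  refine ⟨Nat.find hex, Nat.find_spec hex, ?_⟩
  rcases h : Nat.find hex with _ | a
  · simp; omega
  · have := Nat.find_min hex (show a < Nat.find hex by omega)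
    rw [pow_succ]
    nlinarith

lemma exists_modulus (t : ℕ) (ht : 1 ≤ t) : ∃ N k : ℕ, t ≤ N ∧ N ≤ 2 * t ∧ 2 ^ k ≤ 2 * t ∧
    ∀ ℓ, 4 * (Nat.log 2 t + 5) ≤ 2 ^ ℓ → ∀ ω : ℂ, IsPrimitiveRoot ω N →
      Dep k (800000 * (ℓ + 1) ^ 2) (dft ω N) := by
  set y := Nat.log 2 t + 5 with hy
  set M := Nat.centralBinom y with hM
  let f : ℕ → ℕ := fun p => p ^ M.factorization p
  have hf : ∀ p, f p ≤ 2 * y := fun p => Nat.pow_factorization_choose_le (by omega)
  have hM0 : M ≠ 0 := Nat.centralBinom_ne_zero y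
  have h2 : 2 ∈ M.primeFactors := Nat.mem_primeFactors.2
    ⟨Nat.prime_two, Nat.two_dvd_centralBinom_of_one_le (by omega), hM0⟩
  have hprod : f 2 * ∏ p ∈ M.primeFactors.erase 2, f p = M := by
    rw [Finset.mul_prod_erase _ f h2]
    exact ((Nat.prod_factorization_pow_eq_self hM0).symm.trans
      (Nat.prod_factorization_eq_prod_primeFactors _)).symm
  have hbig : t < ∏ p ∈ M.primeFactors.erase 2, f p := by
    by_contra hle
    push Not at hle
    have h1 := Nat.four_pow_lt_mul_centralBinom y (by omega)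
    have h3 : M ≤ 2 * y * t := hprod ▸ Nat.mul_le_mul (hf 2) hle
    have h4 : t < 2 ^ (Nat.log 2 t + 1) := Nat.lt_pow_succ_log_self (by norm_num) t
    have h5 : 2 ^ y = 16 * 2 ^ (Nat.log 2 t + 1) := by rw [hy]; ring
    have h6 : ∀ n, (n + 5) * (n + 5) ≤ 2 ^ (n + 5) := by
      intro n
      induction n with
      | zero => norm_num
      | succ n ih => rw [show n + 1 + 5 = (n + 5) + 1 by ring, pow_succ]; nlinarith
    have h7 : y * y ≤ 2 ^ y := h6 _
    have h8 : 4 ^ y = 2 ^ y * 2 ^ y := by rw [← mul_pow]; norm_num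
    have h9 : y * M ≤ y * (2 * y * t) := Nat.mul_le_mul_left _ h3
    have h10 : y * y * (16 * t) ≤ 2 ^ y * 2 ^ y := Nat.mul_le_mul h7 (by omega)
    nlinarith
  obtain ⟨S, hS, hS1, hS2⟩ := exists_subprod f (2 * y) t ht _ (fun p _ => hf p) hbig
  have hSp : ∀ p ∈ S, p.Prime ∧ p ≠ 2 ∧ 2 ≤ f p := fun p hp => by
    have h := Finset.mem_erase.1 (hS hp)
    have hp' := Nat.prime_of_mem_primeFactors h.2
    refine ⟨hp', h.1, ?_⟩
    have : M.factorization p ≠ 0 := Finsupp.mem_support_iff.1 h.2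
    exact hp'.two_le.trans (Nat.le_self_pow this p)
  have hP : 2 ^ S.card ≤ ∏ p ∈ S, f p := Finset.pow_card_le_prod _ _ _ fun p hp => (hSp p hp).2.2
  have hP1 : 1 ≤ ∏ p ∈ S, f p := Nat.one_le_two_pow.trans hP
  obtain ⟨a, ha1, ha2⟩ := exists_two_pow_mul hP1 hS1
  refine ⟨2 ^ a * ∏ p ∈ S, f p, 1 + S.card, ha1, ha2.le, by rw [pow_add]; omega, ?_⟩
  intro ℓ hℓ
  have ha3 : 2 ^ a ≤ 2 ^ ℓ := by
    have : 2 ^ a * ∏ p ∈ S, f p < 4 * y * ∏ p ∈ S, f p := by nlinarith
    have := lt_of_mul_lt_mul_right this (Nat.zero_le _)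
    omega
  refine dft_coprime ?_ (by positivity) (by omega) (fun ω hω => dft_dep hω ha3)
    (dft_prod f ℓ S (fun p hp => by have := (hSp p hp).2.2; omega)
      (fun p _ => by have := hf p; omega)
      (fun p hp q hq hpq => Nat.coprime_pow_primes _ _ (hSp p hp).1 (hSp q hq).1 hpq))
  exact Nat.Coprime.prod_right fun p hp =>
    Nat.coprime_pow_primes _ _ Nat.prime_two (hSp p hp).1 (hSp p hp).2.1.symm

lemma chirp_cost {n N : ℕ} (hN : 2 * n ≤ N) (hN0 : N ≠ 0) {η : ℂ} (hη : η ≠ 0) {s : ℝ}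
    (h : ∀ ω : ℂ, IsPrimitiveRoot ω N → Cost (dft ω N).mulVec s) :
    Cost (dft (η ^ 2) n).mulVec (2 * n + N + 2 * s) := by
  have hζ := Complex.isPrimitiveRoot_exp N hN0
  obtain ⟨d, hd⟩ := circ_exists hζ hN0 n hN (fun z => η ^ (-(z ^ 2)))
  let ι : Fin n → Fin N := Fin.castLE (by omega)
  have hι : Function.Injective ι := Fin.castLE_injective _
  have c1 : Cost (emb ι).mulVec 0 := Cost.sel fun i => by
    by_cases hi : ∃ j, i = ι j
    · obtain ⟨j, rfl⟩ := hi
      exact Or.inl ⟨j, fun x => by simp [mulVec, dotProduct, emb, hι.eq_iff]⟩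
    · push Not at hi
      exact Or.inr fun x => by simp [mulVec, dotProduct, emb, hi]
  have c2 : Cost (emb ι)ᵀ.mulVec 0 := Cost.sel fun i =>
    Or.inl ⟨ι i, fun x => by simp [mulVec, dotProduct, emb]⟩
  have c3 := (Mon.diagonal (fun j : Fin n => η ^ (j.val ^ 2))).cost
  have c4 := (Mon.diagonal d).cost
  have := (((((c3.comp c2).comp (h _ hζ)).comp c4).comp (h _ hζ.inv)).comp c1).comp c3
  refine (this.congr fun x => ?_).mono (le_of_eq ?_)
  · simp only [mulVec_mulVec]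
    congr 1
    have e : ∀ (D : Matrix (Fin n) (Fin n) ℂ) (A B C : Matrix (Fin N) (Fin N) ℂ),
        D * ((emb ι)ᵀ * (A * (B * (C * (emb ι * D))))) = D * ((emb ι)ᵀ * (A * B * C) * emb ι) * D := by
      intros; simp only [Matrix.mul_assoc]
    rw [e, emb_tr_mul_mul_emb]
    ext j k
    rw [mul_diagonal, diagonal_mul, submatrix_apply, hd _ _ j.2 k.2]
    simp only [dft, of_apply, ι, Fin.val_castLE]
    rw [← pow_mul, ← zpow_natCast, ← zpow_natCast, ← zpow_natCast, ← zpow_add₀ hη, ← zpow_add₀ hη]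
    congr 1
    push_cast
    ring
  · simp; ring

end Crest.Agent.R324
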