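import Mathlib
import Crest.Prelude.Def_LinCircuit

set_option autoImplicit false

/-! Abstract cost model for linear circuits. -/

namespace Crest.Agent.R324

open Finset

/-- One gate: a sum of two available values or a scalar multiple of one. -/
def Step {M : Type} [AddCommGroup M] [Module ℂ M] (S : Set M) (v : M) : Prop :=
  (∃ a ∈ insert (0 : M) S, ∃ b ∈ insert (0 : M) S, v = a + b) ∨
    (∃ c : ℂ, ∃ a ∈ insert (0 : M) S, v = c • a)

/-- `Gen S n T`: starting from `S`, at most `n` gates make all of `T` available. -/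
inductive Gen {M : Type} [AddCommGroup M] [Module ℂ M] : Set M → ℕ → Set M → Prop
  | base {S T : Set M} {n : ℕ} : T ⊆ insert 0 S → Gen S n T
  | step {S T : Set M} {n : ℕ} (v : M) : Step S v → Gen (insert v S) n T → Gen S (n + 1) T

section Gen

variable {M M' : Type} [AddCommGroup M] [Module ℂ M] [AddCommGroup M'] [Module ℂ M']

lemma Step.mono {S S' : Set M} {v : M} (h : Step S v) (hS : S ⊆ insert 0 S') : Step S' v := by
  have key : insert (0 : M) S ⊆ insert 0 S' := Set.insert_subset (Set.mem_insert _ _) hS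
  rcases h with ⟨a, ha, b, hb, rfl⟩ | ⟨c, a, ha, rfl⟩
  · exact Or.inl ⟨a, key ha, b, key hb, rfl⟩
  · exact Or.inr ⟨c, a, key ha, rfl⟩

lemma Gen.mono_left {S T : Set M} {n : ℕ} (h : Gen S n T) :
    ∀ {S' : Set M}, S ⊆ insert 0 S' → Gen S' n T := by
  induction h with
  | base h =>
    intro S' hS
    exact Gen.base (h.trans (Set.insert_subset (Set.mem_insert _ _) hS))
  | step v hv _ ih =>
    intro S' hS
    refine Gen.step v (hv.mono hS) (ih ?_)
    intro x hx
    rcases hx with rfl | hx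
    · simp
    · rcases hS hx with rfl | h
      · simp
      · simp [h]

lemma Gen.mono_right {S T : Set M} {n : ℕ} (h : Gen S n T) :
    ∀ {T' : Set M}, T' ⊆ T → Gen S n T' := by
  induction h with
  | base h => intro T' hT; exact Gen.base (hT.trans h)
  | step v hv _ ih => intro T' hT; exact Gen.step v hv (ih hT)

lemma Gen.succ {S T : Set M} {n : ℕ} (h : Gen S n T) : Gen S (n + 1) T := by
  induction h with
  | base h => exact Gen.base h
  | step v hv _ ih => exact Gen.step v hv ih

lemma Gen.mono_n {S T : Set M} {n m : ℕ} (h : Gen S n T) (hnm : n ≤ m) : Gen S m T := by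
  induction hnm with
  | refl => exact h
  | step _ ih => exact ih.succ

lemma Gen.trans {S T : Set M} {n : ℕ} (h : Gen S n T) :
    ∀ {U : Set M} {m : ℕ}, Gen (S ∪ T) m U → Gen S (n + m) U := by
  induction h with
  | @base S T n h =>
    intro U m hU
    refine (hU.mono_left ?_).mono_n (Nat.le_add_left _ _)
    rintro x (hx | hx)
    · exact Set.mem_insert_of_mem _ hx
    · exact h hx
  | @step S T n v hv _ ih =>
    intro U m hU
    have : n + 1 + m = (n + m) + 1 := by ring
    rw [this]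
    refine Gen.step v hv (ih (hU.mono_left ?_))
    rintro x (hx | hx)
    · simp [hx]
    · simp [hx]

lemma Gen.keep {S T : Set M} {n : ℕ} (h : Gen S n T) : Gen S n (S ∪ T) := by
  have := h.trans (U := S ∪ T) (m := 0) (Gen.base (Set.subset_insert _ _))
  simpa using this

lemma Gen.union {S T U : Set M} {n m : ℕ} (h : Gen S n T) (h' : Gen S m U) :
    Gen S (n + m) (T ∪ U) := by
  refine h.trans ?_
  have h2 : Gen (S ∪ T) m U :=
    h'.mono_left (fun x hx => Set.mem_insert_of_mem _ (Or.inl hx))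
  refine h2.keep.mono_right ?_
  rintro x (hx | hx)
  · exact Or.inl (Or.inr hx)
  · exact Or.inr hx

lemma Gen.biUnion {W : Type} (s : Finset W) {S : Set M} (T : W → Set M) (n : W → ℕ)
    (h : ∀ w ∈ s, Gen S (n w) (T w)) : Gen S (∑ w ∈ s, n w) (⋃ w ∈ s, T w) := by
  classical
  induction s using Finset.induction_on with
  | empty => exact Gen.base (by simp)
  | insert a s ha ih =>
    rw [Finset.sum_insert ha]
    have h1 := (h a (Finset.mem_insert_self _ _)).union
      (ih (fun w hw => h w (Finset.mem_insert_of_mem hw)))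
    refine h1.mono_right ?_
    simp

lemma Gen.map (f : M →ₗ[ℂ] M') {S T : Set M} {n : ℕ} (h : Gen S n T) :
    Gen (f '' S) n (f '' T) := by
  have key : ∀ (S : Set M) (a : M), a ∈ insert (0 : M) S → f a ∈ insert (0 : M') (f '' S) := by
    rintro S a (rfl | ha)
    · simp
    · exact Set.mem_insert_of_mem _ ⟨a, ha, rfl⟩
  induction h with
  | @base S T n h =>
    refine Gen.base ?_
    rintro _ ⟨a, ha, rfl⟩
    exact key S a (h ha)
  | @step S T n v hv _ ih =>
    refine Gen.step (f v) ?_ ?_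
    · rcases hv with ⟨a, ha, b, hb, rfl⟩ | ⟨c, a, ha, rfl⟩
      · exact Or.inl ⟨f a, key S a ha, f b, key S b hb, by simp⟩
      · exact Or.inr ⟨c, f a, key S a ha, by simp⟩
    · rwa [Set.image_insert_eq] at ih

lemma Gen.single {S : Set M} {v : M} (h : Step S v) : Gen S 1 {v} :=
  Gen.step v h (Gen.base (by simp))

lemma Gen.lincomb {J : Type} (s : Finset J) {S : Set M} (c : J → ℂ) (a : J → M)
    (ha : ∀ j, a j ∈ S) : Gen S (2 * s.card) {∑ j ∈ s, c j • a j} := by
  classical
  induction s using Finset.induction_on with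
  | empty => exact Gen.base (by simp)
  | insert j s hj ih =>
    rw [Finset.sum_insert hj, Finset.card_insert_of_notMem hj]
    have h1 : Gen S 1 {c j • a j} :=
      Gen.single (Or.inr ⟨c j, a j, Set.mem_insert_of_mem _ (ha j), rfl⟩)
    have h2 := (ih.union h1).trans (U := {c j • a j + ∑ j ∈ s, c j • a j}) (m := 1)
      (Gen.single (Or.inl ⟨c j • a j, by simp, ∑ j ∈ s, c j • a j, by simp, rfl⟩))
    exact h2.mono_n (by omega)

end Gen

/-- The coordinate functionals. -/
def coords (J : Type) : Set ((J → ℂ) → ℂ) := Set.range fun j x => x j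

/-- The output functionals of an operator. -/
def outs {I J : Type} (L : (J → ℂ) → I → ℂ) : Set ((J → ℂ) → ℂ) := Set.range fun i x => L x i

/-- The operator `L` is computed with at most `s` gates. -/
def Cost {I J : Type} (L : (J → ℂ) → I → ℂ) (s : ℝ) : Prop :=
  ∃ n : ℕ, (n : ℝ) ≤ s ∧ Gen (coords J) n (outs L)

/-- Precomposition of functionals with an arbitrary map. -/
def precomp {A B : Type} (φ : A → B) : (B → ℂ) →ₗ[ℂ] (A → ℂ) where
  toFun f := fun a => f (φ a)
  map_add' _ _ := rfl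
  map_smul' _ _ := rfl

section Cost

variable {I J K : Type}

lemma Cost.mono {L : (J → ℂ) → I → ℂ} {s t : ℝ} (h : Cost L s) (hst : s ≤ t) : Cost L t := by
  obtain ⟨n, hn, h⟩ := h
  exact ⟨n, hn.trans hst, h⟩

lemma Cost.nonneg {L : (J → ℂ) → I → ℂ} {s : ℝ} (h : Cost L s) : 0 ≤ s := by
  obtain ⟨n, hn, _⟩ := h
  exact (Nat.cast_nonneg n).trans hn

lemma Cost.comp {L : (J → ℂ) → I → ℂ} {L' : (K → ℂ) → J → ℂ} {s t : ℝ}
    (h : Cost L s) (h' : Cost L' t) : Cost (fun x => L (L' x)) (s + t) := by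
  obtain ⟨n, hn, h⟩ := h
  obtain ⟨m, hm, h'⟩ := h'
  refine ⟨m + n, by push_cast; linarith, h'.trans ?_⟩
  have := h.map (precomp L')
  refine (this.mono_left ?_).mono_right ?_
  · rintro _ ⟨_, ⟨j, rfl⟩, rfl⟩
    exact Set.mem_insert_of_mem _ (Or.inr ⟨j, rfl⟩)
  · rintro _ ⟨i, rfl⟩
    exact ⟨_, ⟨i, rfl⟩, rfl⟩

lemma Cost.congr {L L' : (J → ℂ) → I → ℂ} {s : ℝ} (h : Cost L s) (e : ∀ x, L' x = L x) :
    Cost L' s := by
  have : L' = L := funext e
  rwa [this]

lemma Cost.blocks {W : Type} [Fintype W] {I' J' : W → Type}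
    (L' : (w : W) → (J' w → ℂ) → I' w → ℂ) (s : W → ℝ) (h : ∀ w, Cost (L' w) (s w))
    (φ : (w : W) → J' w → J) {L : (J → ℂ) → I → ℂ}
    (hL : ∀ i, ∃ w i', ∀ x, L x i = L' w (fun j => x (φ w j)) i') :
    Cost L (∑ w, s w) := by
  choose n hn hg using h
  refine ⟨∑ w, n w, by push_cast; exact Finset.sum_le_sum fun w _ => hn w, ?_⟩
  have key := Gen.biUnion (S := coords J) Finset.univ
    (fun w => (precomp (fun (x : J → ℂ) (j : J' w) => x (φ w j))) '' outs (L' w)) n
    (fun w _ => ((hg w).map (precomp (fun (x : J → ℂ) (j : J' w) => x (φ w j)))).mono_left (by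
      rintro _ ⟨_, ⟨j, rfl⟩, rfl⟩
      exact Set.mem_insert_of_mem _ ⟨φ w j, rfl⟩))
  refine key.mono_right ?_
  rintro _ ⟨i, rfl⟩
  obtain ⟨w, i', hw⟩ := hL i
  simp only [Finset.mem_univ, Set.iUnion_true, Set.mem_iUnion]
  exact ⟨w, _, ⟨i', rfl⟩, funext fun x => (hw x).symm⟩

lemma Cost.reindex {I' J' : Type} {L' : (J' → ℂ) → I' → ℂ} {s : ℝ} (h : Cost L' s)
    (φ : J' → J) {L : (J → ℂ) → I → ℂ}
    (hL : ∀ i, ∃ i', ∀ x, L x i = L' (fun j => x (φ j)) i') : Cost L s := by
  have := Cost.blocks (W := Unit) (I' := fun _ => I') (J' := fun _ => J') (fun _ => L')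
    (fun _ => s) (fun _ => h) (fun _ => φ) (L := L) (fun i => ⟨(), hL i⟩)
  simpa using this

lemma Cost.sel {L : (J → ℂ) → I → ℂ}
    (hL : ∀ i, (∃ j, ∀ x, L x i = x j) ∨ ∀ x, L x i = 0) : Cost L 0 := by
  refine ⟨0, by simp, Gen.base ?_⟩
  rintro _ ⟨i, rfl⟩
  rcases hL i with ⟨j, hj⟩ | h
  · exact Set.mem_insert_of_mem _ ⟨j, funext fun x => (hj x).symm⟩
  · exact Or.inl (funext h)

lemma Cost.rows [Fintype I] {L : (J → ℂ) → I → ℂ} (n : ℕ)
    (hL : ∀ i, Gen (coords J) n {fun x => L x i}) : Cost L (n * Fintype.card I) := by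
  refine ⟨∑ _i : I, n, by simp [mul_comm], ?_⟩
  have := Gen.biUnion (S := coords J) Finset.univ (fun i => {fun x => L x i}) (fun _ => n)
    (fun i _ => hL i)
  refine this.mono_right ?_
  rintro _ ⟨i, rfl⟩
  simp

lemma Cost.scale [Fintype I] {L : (J → ℂ) → I → ℂ}
    (hL : ∀ i, ∃ c j, ∀ x, L x i = c * x j) : Cost L (Fintype.card I) := by
  have := Cost.rows (L := L) 1 (fun i => by
    obtain ⟨c, j, h⟩ := hL i
    exact Gen.single (Or.inr ⟨c, fun x => x j, Set.mem_insert_of_mem _ ⟨j, rfl⟩,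
      funext fun x => h x⟩))
  simpa using this

lemma Cost.sparse [Fintype I] {W : Type} [Fintype W] {L : (J → ℂ) → I → ℂ}
    (hL : ∀ i, ∃ (c : W → ℂ) (φ : W → J), ∀ x, L x i = ∑ w, c w * x (φ w)) :
    Cost L (2 * Fintype.card W * Fintype.card I) := by
  have := Cost.rows (L := L) (2 * Fintype.card W) (fun i => by
    obtain ⟨c, φ, h⟩ := hL i
    have := Gen.lincomb (S := coords J) Finset.univ c (fun w x => x (φ w)) (fun w => ⟨φ w, rfl⟩)
    have e : (fun x => L x i) = ∑ j, c j • fun (x : J → ℂ) => x (φ j) := by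
      funext x
      simp [h x, Finset.sum_apply]
    rw [e]
    exact this)
  simpa using this

end Cost

section Circuit

open Crest.FourierCircuit

/-- Values available after a list of gates. -/
noncomputable def avail {n : ℕ} (gs : List LGate) (x : Fin n → ℂ) : List ℂ :=
  gs.foldl (fun avail g => avail ++ [g.value avail]) (List.ofFn x ++ [0])

lemma avail_append {n : ℕ} (gs : List LGate) (g : LGate) (x : Fin n → ℂ) :
    avail (gs ++ [g]) x = avail gs x ++ [g.value (avail gs x)] := by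
  simp [avail, List.foldl_append]

lemma avail_length {n : ℕ} (gs : List LGate) (x : Fin n → ℂ) :
    (avail gs x).length = n + 1 + gs.length := by
  induction gs using List.reverseRecOn with
  | nil => simp [avail]
  | append_singleton gs g ih => rw [avail_append]; simp [ih]; ring

/-- The functionals available after a list of gates. -/
def availSet (n : ℕ) (gs : List LGate) : Set ((Fin n → ℂ) → ℂ) :=
  {f | ∃ p < n + 1 + gs.length, ∀ x, (avail gs x).getD p 0 = f x}

lemma availSet_mono (n : ℕ) (gs : List LGate) (g : LGate) :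
    availSet n gs ⊆ availSet n (gs ++ [g]) := by
  rintro f ⟨p, hp, h⟩
  refine ⟨p, by simp; omega, fun x => ?_⟩
  rw [avail_append, ← h x, List.getD_append _ _ _ _ (by rw [avail_length]; exact hp)]

lemma availSet_new (n : ℕ) (gs : List LGate) (g : LGate) :
    (fun x => g.value (avail gs x)) ∈ availSet n (gs ++ [g]) := by
  refine ⟨n + 1 + gs.length, by simp, fun x => ?_⟩
  rw [avail_append, List.getD_append_right _ _ _ _ (by rw [avail_length])]
  simp [avail_length]

lemma zero_mem_availSet (n : ℕ) (gs : List LGate) : (0 : (Fin n → ℂ) → ℂ) ∈ availSet n gs := by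
  induction gs using List.reverseRecOn with
  | nil =>
    refine ⟨n, by simp, fun x => ?_⟩
    simp [avail]
  | append_singleton gs g ih => exact availSet_mono n gs g ih

lemma Gen.toGates {n : ℕ} {S T : Set ((Fin n → ℂ) → ℂ)} {m : ℕ} (h : Gen S m T) :
    ∀ gs : List LGate, S ⊆ availSet n gs →
      ∃ gs' : List LGate, gs'.length ≤ gs.length + m ∧ T ⊆ availSet n gs' := by
  induction h with
  | @base S T m h =>
    intro gs hS
    exact ⟨gs, by omega, h.trans (Set.insert_subset (zero_mem_availSet n gs) hS)⟩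
  | @step S T m v hv _ ih =>
    intro gs hS
    have hS0 : insert 0 S ⊆ availSet n gs := Set.insert_subset (zero_mem_availSet n gs) hS
    have : ∃ g : LGate, v = fun x => g.value (avail gs x) := by
      rcases hv with ⟨a, ha, b, hb, rfl⟩ | ⟨c, a, ha, rfl⟩
      · obtain ⟨p, _, hp⟩ := hS0 ha
        obtain ⟨q, _, hq⟩ := hS0 hb
        refine ⟨LGate.add p q, funext fun x => ?_⟩
        simp only [LGate.value, hp, hq, Pi.add_apply]
      · obtain ⟨p, _, hp⟩ := hS0 ha
        refine ⟨LGate.smul c p, funext fun x => ?_⟩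
        simp only [LGate.value, hp, Pi.smul_apply, smul_eq_mul]
    obtain ⟨g, rfl⟩ := this
    obtain ⟨gs', h1, h2⟩ := ih (gs ++ [g]) (Set.insert_subset (availSet_new n gs g)
      (hS.trans (availSet_mono n gs g)))
    exact ⟨gs', by simp at h1; omega, h2⟩

theorem Cost.toCircuit {n : ℕ} {A : Matrix (Fin n) (Fin n) ℂ} {s : ℝ}
    (h : Cost A.mulVec s) : ∃ P : LinCircuit n, P.Computes A ∧ (P.size : ℝ) ≤ s := by
  obtain ⟨m, hm, h⟩ := h
  obtain ⟨gs, h1, h2⟩ := h.toGates [] (by
    rintro _ ⟨j, rfl⟩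
    refine ⟨j, by have := j.2; simp only [List.length_nil]; omega, fun x => ?_⟩
    simp only [avail, List.foldl_nil]
    rw [List.getD_append _ _ _ _ (by simp)]
    simp)
  have : ∀ k : Fin n, ∃ p, ∀ x, (avail gs x).getD p 0 = A.mulVec x k := fun k => by
    obtain ⟨p, _, hp⟩ := h2 ⟨k, rfl⟩
    exact ⟨p, hp⟩
  choose out hout using this
  refine ⟨⟨gs, out⟩, fun x k => hout k x, ?_⟩
  have : (gs.length : ℝ) ≤ m := by exact_mod_cast (by simpa using h1)
  exact this.trans hm

end Circuit

end Crest.Agent.R324
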