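import Crest.Agent.R324.Had
import Crest.Agent.R324.Lift

set_option autoImplicit false
set_option linter.unusedSectionVars false

/-! Products of monomial matrices and block-Hadamard layers. -/

namespace Crest.Agent.R324

open Finset Matrix Kronecker

/-- Matrices with at most one nonzero entry in each row. -/
def Mon {I : Type} [Fintype I] (M : Matrix I I ℂ) : Prop :=
  ∀ i, ∃ c j, ∀ x, (M *ᵥ x) i = c * x j

/-- Products of `L` block-Hadamard layers interleaved with monomial matrices. -/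
inductive Dep {I : Type} [Fintype I] (r : ℕ) : ℕ → Matrix I I ℂ → Prop
  | mon {M : Matrix I I ℂ} : Mon M → Dep r 0 M
  | step {L : ℕ} {M E A : Matrix I I ℂ} : Mon M → HB r E → Dep r L A → Dep r (L + 1) (M * E * A)

variable {I J : Type} [Fintype I] [Fintype J]

lemma Mon.mul {M N : Matrix I I ℂ} (h : Mon M) (h' : Mon N) : Mon (M * N) := fun i => by
  obtain ⟨c, j, hj⟩ := h i
  obtain ⟨c', k, hk⟩ := h' j
  exact ⟨c * c', k, fun x => by rw [← mulVec_mulVec, hj, hk, mul_assoc]⟩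

lemma Mon.diagonal [DecidableEq I] (d : I → ℂ) : Mon (diagonal d) := fun i =>
  ⟨d i, i, fun _ => mulVec_diagonal _ _ _⟩

lemma Mon.one [DecidableEq I] : Mon (1 : Matrix I I ℂ) := Mon.diagonal _

lemma Mon.rowsel [DecidableEq I] (π : I → I) : Mon ((1 : Matrix I I ℂ).submatrix π id) := fun i =>
  ⟨1, π i, fun x => by simp [mulVec, dotProduct, one_apply]⟩

lemma Mon.kron {M : Matrix I I ℂ} {N : Matrix J J ℂ} (h : Mon M) (h' : Mon N) :
    Mon (M ⊗ₖ N) := by
  rintro ⟨i, j⟩
  obtain ⟨c, i', hi⟩ := h i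
  obtain ⟨c', j', hj⟩ := h' j
  exact ⟨c * c', (i', j'), fun x => by rw [kron_mulVec, hi, hj, mul_assoc]⟩

lemma Mon.reindex {M : Matrix I I ℂ} (h : Mon M) (e : J ≃ I) : Mon (M.submatrix e e) := fun j => by
  obtain ⟨c, i, hi⟩ := h (e j)
  refine ⟨c, e.symm i, fun x => ?_⟩
  rw [submatrix_mulVec_equiv]
  exact hi _

lemma Mon.sum {M : Matrix I I ℂ} {N : Matrix J J ℂ} (h : Mon M) (h' : Mon N) :
    Mon (fromBlocks M 0 0 N) := by
  rintro (i | j)
  · obtain ⟨c, i', hi⟩ := h i
    refine ⟨c, Sum.inl i', fun x => ?_⟩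
    rw [fromBlocks_mulVec]
    simp only [Sum.elim_inl, zero_mulVec, add_zero]
    exact hi _
  · obtain ⟨c, i', hi⟩ := h' j
    refine ⟨c, Sum.inr i', fun x => ?_⟩
    rw [fromBlocks_mulVec]
    simp only [Sum.elim_inr, zero_mulVec, zero_add]
    exact hi _

lemma Mon.cost {M : Matrix I I ℂ} (h : Mon M) : Cost M.mulVec (Fintype.card I) := Cost.scale h

lemma Dep.mon_mul {r L : ℕ} {M A : Matrix I I ℂ} (hM : Mon M) (h : Dep r L A) :
    Dep r L (M * A) := by
  cases h with
  | mon h => exact Dep.mon (hM.mul h)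
  | step h1 h2 h3 =>
    rw [← Matrix.mul_assoc, ← Matrix.mul_assoc]
    exact Dep.step (hM.mul h1) h2 h3

lemma Dep.mul {r L L' : ℕ} {A B : Matrix I I ℂ} (h : Dep r L A) (h' : Dep r L' B) :
    Dep r (L + L') (A * B) := by
  induction h with
  | mon h => simpa using h'.mon_mul h
  | @step L M E A h1 h2 _ ih =>
    rw [Matrix.mul_assoc, show L + 1 + L' = (L + L') + 1 by ring]
    exact Dep.step h1 h2 ih

lemma Dep.mul_mon {r L : ℕ} {M A : Matrix I I ℂ} (h : Dep r L A) (hM : Mon M) :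
    Dep r L (A * M) := h.mul (Dep.mon hM)

lemma Dep.succ {r L : ℕ} {A : Matrix I I ℂ} (h : Dep r L A) : Dep r (L + 1) A := by
  classical
  simpa using Dep.step Mon.one (HB.one r) h

lemma Dep.mono {r L L' : ℕ} {A : Matrix I I ℂ} (h : Dep r L A) (hL : L ≤ L') : Dep r L' A := by
  induction hL with
  | refl => exact h
  | step _ ih => exact ih.succ

lemma Dep.mono_r {r r' L : ℕ} {A : Matrix I I ℂ} (h : Dep r L A) (hr : r ≤ r') : Dep r' L A := by
  induction h with
  | mon h => exact Dep.mon h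
  | step h1 h2 _ ih => exact Dep.step h1 (h2.mono hr) ih

lemma Dep.one [DecidableEq I] (r L : ℕ) : Dep r L (1 : Matrix I I ℂ) :=
  (Dep.mon Mon.one).mono (Nat.zero_le _)

lemma Dep.ofHB {r : ℕ} {E : Matrix I I ℂ} (h : HB r E) : Dep r 1 E := by
  classical
  simpa using Dep.step Mon.one h (Dep.mon Mon.one)

lemma Dep.kron {r r' L : ℕ} {A : Matrix I I ℂ} (h : Dep r L A) :
    ∀ {B : Matrix J J ℂ}, Dep r' L B → Dep (r + r') L (A ⊗ₖ B) := by
  induction h with
  | mon h =>
    intro B hB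
    cases hB with
    | mon hB => exact Dep.mon (h.kron hB)
  | step h1 h2 _ ih =>
    intro B hB
    cases hB with
    | step g1 g2 g3 =>
      rw [mul_kronecker_mul, mul_kronecker_mul]
      exact Dep.step (h1.kron g1) (h2.kron g2) (ih g3)

lemma Dep.sum {r L : ℕ} {A : Matrix I I ℂ} (h : Dep r L A) :
    ∀ {B : Matrix J J ℂ}, Dep r L B → Dep r L (fromBlocks A 0 0 B) := by
  induction h with
  | mon h =>
    intro B hB
    cases hB with
    | mon hB => exact Dep.mon (h.sum hB)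
  | step h1 h2 _ ih =>
    intro B hB
    cases hB with
    | step g1 g2 g3 =>
      have := Dep.step (h1.sum g1) (h2.sum g2) (ih g3)
      simpa [fromBlocks_multiply] using this

lemma Dep.reindex {r L : ℕ} {A : Matrix I I ℂ} (h : Dep r L A) (e : J ≃ I) :
    Dep r L (A.submatrix e e) := by
  induction h with
  | mon h => exact Dep.mon (h.reindex e)
  | step h1 h2 _ ih =>
    rw [← submatrix_mul_equiv _ _ _ e, ← submatrix_mul_equiv _ _ _ e]
    exact Dep.step (h1.reindex e) (h2.reindex e) ih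

lemma Dep.of_reindex {r L : ℕ} {A : Matrix I I ℂ} (e : J ≃ I) (h : Dep r L (A.submatrix e e)) :
    Dep r L A := by
  simpa using h.reindex e.symm

lemma Dep.rowsel {r L : ℕ} {A : Matrix I I ℂ} (h : Dep r L A) (π : I → I) :
    Dep r L (A.submatrix π id) := by
  classical
  have := h.mon_mul (Mon.rowsel π)
  rwa [← submatrix_id_id A, ← submatrix_mul _ _ _ _ _ Function.bijective_id, Matrix.one_mul]
    at this

lemma Dep.cost {r L : ℕ} {c : ℝ} (hc : ∀ j ≤ r, HC j c) {A : Matrix I I ℂ} (h : Dep r L A) :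
    Cost A.mulVec ((L + 1 + L * c) * Fintype.card I) := by
  induction h with
  | mon h => simpa using h.cost
  | step h1 h2 _ ih =>
    refine (((h1.cost.comp (h2.cost hc)).comp ih).congr fun x => ?_).mono (le_of_eq ?_)
    · simp only [mulVec_mulVec, Matrix.mul_assoc]
    · push_cast; ring

lemma Dep.extd [DecidableEq I] [DecidableEq J] {r L : ℕ} {A : Matrix J J ℂ} (h : Dep r L A)
    {e : J → I} (he : Function.Injective e) : Dep r L (extd e A) := by
  classical
  let ε : J ⊕ ((Set.range e)ᶜ : Set I) ≃ I :=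
    ((Equiv.ofInjective e he).sumCongr (Equiv.refl _)).trans (Equiv.Set.sumCompl (Set.range e))
  have h1 : ∀ j, ε (Sum.inl j) = e j := fun j => rfl
  have h2 : ∀ j, ε (Sum.inr j) = j := fun j => rfl
  refine Dep.of_reindex ε ?_
  convert h.sum (Dep.one (I := ((Set.range e)ᶜ : Set I)) r L) using 1
  ext (a | a) (b | b)
  · simp [h1, R324.extd, lift_apply_emb he he, one_apply, he.eq_iff]
  · have : e a ≠ b := fun h => b.2 ⟨a, h⟩
    simp only [submatrix_apply, h1, h2, R324.extd, Matrix.add_apply, one_apply_ne this,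
      fromBlocks_apply₁₂, Matrix.zero_apply, zero_add]
    exact lift_apply_of_col _ _ _ fun j hj => b.2 ⟨j, hj.symm⟩
  · have : (a : I) ≠ e b := fun h => a.2 ⟨b, h.symm⟩
    simp only [submatrix_apply, h1, h2, R324.extd, Matrix.add_apply, one_apply_ne this,
      fromBlocks_apply₂₁, Matrix.zero_apply, zero_add]
    exact lift_apply_of_row _ _ _ fun j hj => a.2 ⟨j, hj.symm⟩
  · simp only [submatrix_apply, h2, R324.extd, Matrix.add_apply, fromBlocks_apply₂₂]
    rw [lift_apply_of_row _ _ _ fun j hj => a.2 ⟨j, hj.symm⟩, add_zero]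
    simp [one_apply, Subtype.ext_iff]

lemma Dep.sum_nil [DecidableEq I] {W : Type} (s : Finset W) {r L : ℕ} (N : W → Matrix I I ℂ)
    (hN : ∀ a b, N a * N b = 0) (h : ∀ w ∈ s, Dep r L (1 + N w)) :
    Dep r (s.card * L) (1 + ∑ w ∈ s, N w) := by
  classical
  induction s using Finset.induction_on with
  | empty => simpa using Dep.one r 0
  | insert a s ha ih =>
    have := (h a (Finset.mem_insert_self _ _)).mul
      (ih fun w hw => h w (Finset.mem_insert_of_mem hw))
    rw [Finset.sum_insert ha, Finset.card_insert_of_notMem ha]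
    convert this using 1
    · ring
    · rw [add_mul, mul_add, mul_add, Finset.mul_sum, Finset.mul_sum]
      simp only [hN, Finset.sum_const_zero, one_mul, mul_one, add_zero]
      abel

/-- The Fourier matrix attached to a root of unity. -/
noncomputable def dft (ω : ℂ) (n : ℕ) : Matrix (Fin n) (Fin n) ℂ :=
  Matrix.of fun j k => ω ^ (j.val * k.val)

lemma dft_mul_inv {ω : ℂ} {n : ℕ} (hω : IsPrimitiveRoot ω n) :
    dft ω n * dft ω⁻¹ n = (n : ℂ) • (1 : Matrix (Fin n) (Fin n) ℂ) := by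
  ext j k
  have hn : n ≠ 0 := by have := j.2; omega
  have h0 : ω ≠ 0 := hω.ne_zero hn
  have : ∀ l : Fin n, ω ^ (j.val * l.val) * ω⁻¹ ^ (l.val * k.val) = (ω ^ j.val * ω⁻¹ ^ k.val) ^ l.val :=
    fun l => by rw [mul_pow, ← pow_mul, ← pow_mul, mul_comm k.val]
  simp only [mul_apply, dft, of_apply, this, Matrix.smul_apply, smul_eq_mul]
  rw [Fin.sum_univ_eq_sum_range (fun l => (ω ^ j.val * ω⁻¹ ^ k.val) ^ l)]
  by_cases hjk : j = k
  · subst hjk
    rw [← mul_pow, mul_inv_cancel₀ h0]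
    simp
  · rw [one_apply_ne hjk, mul_zero]
    have h1 : ω ^ j.val * ω⁻¹ ^ k.val ≠ 1 := by
      intro h
      apply hjk
      rw [inv_pow, mul_inv_eq_one₀ (pow_ne_zero _ h0)] at h
      exact Fin.ext (hω.pow_inj j.2 k.2 h)
    have h2 : (ω ^ j.val * ω⁻¹ ^ k.val) ^ n = 1 := by
      rw [mul_pow, ← pow_mul, ← pow_mul, mul_comm j.val, mul_comm k.val, pow_mul, pow_mul,
        hω.pow_eq_one, inv_pow, hω.pow_eq_one]
      simp
    have h3 := mul_geom_sum (ω ^ j.val * ω⁻¹ ^ k.val) n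
    rw [h2, sub_self] at h3
    exact (mul_eq_zero.1 h3).resolve_left (sub_ne_zero.2 h1)

theorem fft_dep (j : ℕ) : ∀ ω : ℂ, IsPrimitiveRoot ω (2 ^ j) → Dep 1 j (dft ω (2 ^ j)) := by
  induction j with
  | zero =>
    intro ω _
    have : dft ω (2 ^ 0) = 1 := by
      ext a b
      have ha : a.val = 0 := Nat.lt_one_iff.1 a.2
      have hab : a = b := Fin.ext (ha.trans (Nat.lt_one_iff.1 b.2).symm)
      subst hab
      simp [dft]
    rw [this]
    exact Dep.one 1 0
  | succ j ih =>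
    intro ω hω
    have hm : 0 < 2 ^ j := by positivity
    have h2 : IsPrimitiveRoot (ω ^ 2) (2 ^ j) := hω.pow (by positivity) (by ring)
    have hneg : ω ^ (2 ^ j) = -1 :=
      (hω.pow (by positivity) (by ring : 2 ^ (j + 1) = 2 ^ j * 2)).eq_neg_one_of_two_right
    have hA : Dep 1 1 ((1 : Matrix (Fin (2 ^ j)) (Fin (2 ^ j)) ℂ) ⊗ₖ H2) :=
      (Dep.one 0 1).kron (Dep.ofHB HB.h2)
    have hB : Dep 1 j (dft (ω ^ 2) (2 ^ j) ⊗ₖ (1 : Matrix (Fin 2) (Fin 2) ℂ)) :=
      (ih _ h2).kron (Dep.one 0 j)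
    have hC := ((hA.mul_mon (Mon.diagonal fun p => ω ^ (p.1.val * p.2.val))).mul hB).rowsel
      (fun p => (⟨(p.2.val + 2 * p.1.val) % 2 ^ j, Nat.mod_lt _ hm⟩,
        ⟨(p.2.val + 2 * p.1.val) / 2 ^ j, by
          rw [Nat.div_lt_iff_lt_mul hm]; have := p.1.2; have := p.2.2; omega⟩))
    refine Dep.of_reindex (finProdFinEquiv (m := 2 ^ j) (n := 2)) ?_
    rw [add_comm 1 j] at hC
    convert hC using 1
    ext ⟨a, b⟩ ⟨k1, k0⟩
    simp only [submatrix_apply, id, mul_apply (M := _ * diagonal _), mul_diagonal,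
      kroneckerMap_apply, Fintype.sum_prod_type, one_apply, dft, of_apply]
    simp only [mul_ite, ite_mul, one_mul, mul_one, zero_mul, mul_zero, Finset.sum_ite_eq',
      Finset.sum_ite_eq, Finset.mem_univ, if_true]
    have hH : ∀ (u : ℕ) (hu : u < 2), H2 ⟨u, hu⟩ k0 = (-1) ^ (u * k0.val) := by
      intro u hu
      interval_cases u <;> fin_cases k0 <;> simp [H2]
    rw [hH, ← hneg, ← pow_mul, ← pow_mul, ← pow_add, ← pow_add]
    change ω ^ ((b.val + 2 * a.val) * (k0.val + 2 * k1.val)) = _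
    generalize (b.val + 2 * a.val) = q
    conv_lhs => rw [← Nat.mod_add_div q (2 ^ j)]
    have : (q % 2 ^ j + 2 ^ j * (q / 2 ^ j)) * (k0.val + 2 * k1.val) =
      (2 ^ j * (q / 2 ^ j * k0.val) + q % 2 ^ j * k0.val + 2 * (q % 2 ^ j * k1.val)) +
        2 ^ (j + 1) * (q / 2 ^ j * k1.val) := by ring
    rw [this, pow_add, pow_mul ω (2 ^ (j + 1)), hω.pow_eq_one, one_pow, mul_one]

end Crest.Agent.R324
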