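import Crest.Agent.R324.Had

set_option autoImplicit false
set_option linter.unusedSectionVars false

/-! Partial Walsh–Hadamard transforms attached to symmetric idempotents over `ZMod 2`. -/

namespace Crest.Agent.R324

open Finset Matrix

variable {μ : Type} [Fintype μ] [DecidableEq μ]

/-- Symmetric idempotent matrices over `ZMod 2`. -/
def IsPr (P : Matrix μ μ (ZMod 2)) : Prop := Pᵀ = P ∧ P * P = P

/-- The standard bilinear form on matrices. -/
def bil {κ : Type} [Fintype κ] (x y : Matrix μ κ (ZMod 2)) : ZMod 2 := trace (xᵀ * y)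

/-- The partial transform along the image of `P`. -/
noncomputable def fr (κ : Type) [Fintype κ] [DecidableEq κ] (P : Matrix μ μ (ZMod 2)) :
    Matrix (Matrix μ κ (ZMod 2)) (Matrix μ κ (ZMod 2)) ℂ :=
  Matrix.of fun x y => if x - P * x = y - P * y then chi (bil (P * x) (P * y)) else 0

variable {κ : Type} [Fintype κ] [DecidableEq κ]

omit [DecidableEq μ] [DecidableEq κ] in
lemma bil_add_left (x x' y : Matrix μ κ (ZMod 2)) : bil (x + x') y = bil x y + bil x' y := by
  simp [bil, transpose_add, Matrix.add_mul]

omit [DecidableEq μ] [DecidableEq κ] in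
lemma bil_add_right (x y y' : Matrix μ κ (ZMod 2)) : bil x (y + y') = bil x y + bil x y' := by
  simp [bil, Matrix.mul_add]

omit [DecidableEq μ] [DecidableEq κ] in
lemma bil_comm (x y : Matrix μ κ (ZMod 2)) : bil x y = bil y x := by
  unfold bil
  rw [← trace_transpose, transpose_mul, transpose_transpose]

omit [DecidableEq μ] [DecidableEq κ] in
lemma bil_mul_left {ν : Type} [Fintype ν] (A : Matrix μ ν (ZMod 2)) (x : Matrix ν κ (ZMod 2))
    (y : Matrix μ κ (ZMod 2)) : bil (A * x) y = bil x (Aᵀ * y) := by
  simp [bil, transpose_mul, Matrix.mul_assoc]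

omit [DecidableEq μ] [DecidableEq κ] in
lemma bil_zero_right (x : Matrix μ κ (ZMod 2)) : bil x 0 = 0 := by simp [bil]

omit [DecidableEq μ] [DecidableEq κ] in
lemma bil_eq_sum (x y : Matrix μ κ (ZMod 2)) : bil x y = ∑ p : μ × κ, x p.1 p.2 * y p.1 p.2 := by
  simp only [bil, trace, Matrix.diag, mul_apply, transpose_apply, Fintype.sum_prod_type]
  exact Finset.sum_comm

omit [DecidableEq μ] in
lemma IsPr.mul_zero_comm {P Q : Matrix μ μ (ZMod 2)} (hP : IsPr P) (hQ : IsPr Q)
    (h : P * Q = 0) : Q * P = 0 := by
  have := congrArg transpose h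
  rwa [transpose_mul, hP.1, hQ.1, transpose_zero] at this

lemma fr_mul {P Q : Matrix μ μ (ZMod 2)} (hP : IsPr P) (hQ : IsPr Q) (h : P * Q = 0) :
    fr κ P * fr κ Q = fr κ (P + Q) := by
  have h' := hP.mul_zero_comm hQ h
  have hPP : ∀ y : Matrix μ κ (ZMod 2), P * (P * y) = P * y := fun y => by
    rw [← Matrix.mul_assoc, hP.2]
  have hQQ : ∀ y : Matrix μ κ (ZMod 2), Q * (Q * y) = Q * y := fun y => by
    rw [← Matrix.mul_assoc, hQ.2]
  have hPQ : ∀ y : Matrix μ κ (ZMod 2), P * (Q * y) = 0 := fun y => by
    rw [← Matrix.mul_assoc, h, Matrix.zero_mul]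
  have hQP : ∀ y : Matrix μ κ (ZMod 2), Q * (P * y) = 0 := fun y => by
    rw [← Matrix.mul_assoc, h', Matrix.zero_mul]
  ext x z
  rw [mul_apply, Finset.sum_eq_single (P * z + (x - P * x))]
  · have e1 : P * (P * z + (x - P * x)) = P * z := by
      simp [Matrix.mul_add, Matrix.mul_sub, hPP]
    have e2 : Q * (P * z + (x - P * x)) = Q * x := by
      simp [Matrix.mul_add, Matrix.mul_sub, hQP]
    simp only [fr, of_apply, e1, e2]
    rw [if_pos (by abel)]
    have e3 : (P * z + (x - P * x) - Q * x = z - Q * z) ↔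
        (x - (P + Q) * x = z - (P + Q) * z) := by
      rw [Matrix.add_mul, Matrix.add_mul, ← sub_eq_zero, ← sub_eq_zero (a := x - _)]
      have : P * z + (x - P * x) - Q * x - (z - Q * z) =
        x - (P * x + Q * x) - (z - (P * z + Q * z)) := by abel
      rw [this]
    by_cases hc : x - (P + Q) * x = z - (P + Q) * z
    · rw [if_pos (e3.2 hc), if_pos hc, ← chi_add]
      congr 1
      rw [Matrix.add_mul, Matrix.add_mul, bil_add_left, bil_add_right, bil_add_right,
        bil_mul_left P x (Q * z), bil_mul_left Q x (P * z), hP.1, hQ.1, hPQ, hQP, bil_zero_right]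
      simp
    · rw [if_neg (fun h => hc (e3.1 h)), if_neg hc, mul_zero]
  · intro y _ hy
    simp only [fr, of_apply]
    split_ifs with h1 h2
    · exfalso
      apply hy
      have : P * y = P * z := by
        have := congrArg (P * ·) h2
        simpa [Matrix.mul_sub, hPQ] using this
      rw [h1, ← this]; abel
    · simp
    · simp
    · simp
  · simp

lemma fr_zero : fr κ (0 : Matrix μ μ (ZMod 2)) = 1 := by
  ext x y
  simp [fr, bil, one_apply]

lemma add_self_z2 {α β : Type} (x : Matrix α β (ZMod 2)) : x + x = 0 := by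
  ext i j
  simp [CharTwo.add_self_eq_zero]

lemma fr_sq {P : Matrix μ μ (ZMod 2)} (hP : IsPr P) :
    ∃ d : Matrix μ κ (ZMod 2) → ℂ, (∀ x, d x ≠ 0) ∧ fr κ P * fr κ P = diagonal d := by
  have hPP : ∀ y : Matrix μ κ (ZMod 2), P * (P * y) = P * y := fun y => by
    rw [← Matrix.mul_assoc, hP.2]
  refine ⟨fun x => ((univ.filter fun y : Matrix μ κ (ZMod 2) => x - P * x = y - P * y).card : ℂ), fun x => ?_, ?_⟩
  · rw [Nat.cast_ne_zero, Finset.card_ne_zero]
    exact ⟨x, by simp⟩
  · ext x z
    rw [mul_apply]
    by_cases hxz : x = z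
    · subst hxz
      rw [diagonal_apply_eq, Finset.card_filter]
      push_cast
      refine Finset.sum_congr rfl fun y _ => ?_
      simp only [fr, of_apply]
      by_cases hc : x - P * x = y - P * y
      · rw [if_pos hc, if_pos hc.symm, if_pos hc, bil_comm (P * y), chi_mul_self]
      · simp [hc]
    · rw [diagonal_apply_ne _ hxz]
      by_cases hc : x - P * x = z - P * z
      · have hne : P * x + P * z ≠ 0 := by
          intro h0
          apply hxz
          have h1 : P * x = P * z := by
            have := add_self_z2 (P * z)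
            rw [← this] at h0
            exact add_right_cancel h0
          rw [h1] at hc
          exact sub_left_injective hc
        obtain ⟨i, j, hij⟩ : ∃ i j, (P * x + P * z) i j ≠ 0 := by
          by_contra hcon
          push Not at hcon
          exact hne (by ext i j; exact hcon i j)
        have hij1 : (P * x + P * z) i j = 1 := (zmod2_cases _).resolve_left hij
        set t : Matrix μ κ (ZMod 2) := P * (single i j (1 : ZMod 2) : Matrix μ κ (ZMod 2)) with ht
        have hPt : P * t = t := hPP _
        have hbil : bil (P * x) t + bil t (P * z) = 1 := by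
          rw [bil_comm t, ← bil_add_left, ht, bil_comm, bil_mul_left, hP.1, Matrix.mul_add, hPP,
            hPP, bil_eq_sum, Finset.sum_eq_single (i, j)]
          · rw [hij1]; simp
          · rintro ⟨a, b⟩ _ hab
            rw [single_apply_of_ne, zero_mul]
            rintro ⟨rfl, rfl⟩
            exact hab rfl
          · simp
        have hflip : ∀ y, fr κ P x (y + t) * fr κ P (y + t) z = -(fr κ P x y * fr κ P y z) := by
          intro y
          simp only [fr, of_apply, Matrix.mul_add, hPt]
          have e : y + t - (P * y + t) = y - P * y := by abel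
          rw [e]
          split_ifs with h1 h2
          · rw [← chi_add, ← chi_add, bil_add_right, bil_add_left]
            have : bil (P * x) (P * y) + bil (P * x) t + (bil (P * y) (P * z) + bil t (P * z)) =
              (bil (P * x) (P * y) + bil (P * y) (P * z)) + 1 := by rw [← hbil]; ring
            rw [this, chi_add _ 1]; simp
          all_goals simp
        have hs := Equiv.sum_comp (Equiv.addRight t) (fun y => fr κ P x y * fr κ P y z)
        simp only [Equiv.coe_addRight, hflip, Finset.sum_neg_distrib] at hs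
        linear_combination (-1 / 2 : ℂ) * hs
      · refine Finset.sum_eq_zero fun y _ => ?_
        simp only [fr, of_apply]
        split_ifs with h1 h2
        · exact absurd (h1.trans h2) hc
        all_goals simp

lemma exists_factor {P : Matrix μ μ (ZMod 2)} (hP : P * P = P) :
    ∃ (U : Matrix μ (Fin P.rank) (ZMod 2)) (W : Matrix (Fin P.rank) μ (ZMod 2)),
      U * W = P ∧ W * U = 1 := by
  set f := Matrix.toLin' P with hf
  have hfr : Module.finrank (ZMod 2) (LinearMap.range f) = P.rank := by
    rw [hf, Matrix.toLin'_apply']; rfl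
  let e : LinearMap.range f ≃ₗ[ZMod 2] (Fin P.rank → ZMod 2) :=
    (Module.finBasisOfFinrankEq (ZMod 2) _ hfr).equivFun
  refine ⟨LinearMap.toMatrix' ((LinearMap.range f).subtype ∘ₗ e.symm.toLinearMap),
    LinearMap.toMatrix' (e.toLinearMap ∘ₗ f.rangeRestrict), ?_, ?_⟩
  · rw [← LinearMap.toMatrix'_comp]
    have : ((LinearMap.range f).subtype ∘ₗ e.symm.toLinearMap) ∘ₗ
        (e.toLinearMap ∘ₗ f.rangeRestrict) = f := by
      ext v i; simp
    rw [this, hf, LinearMap.toMatrix'_toLin']
  · rw [← LinearMap.toMatrix'_comp, ← LinearMap.toMatrix'_id]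
    congr 1
    refine LinearMap.ext fun v => ?_
    have hff : ∀ w : LinearMap.range f, f.rangeRestrict w = w := by
      rintro ⟨_, u, rfl⟩
      ext1
      change f (f u) = f u
      rw [← LinearMap.comp_apply, hf, ← Matrix.toLin'_mul, hP]
    simp [hff]

lemma rank_add_of_orth {P Q : Matrix μ μ (ZMod 2)} (hP : IsPr P) (hQ : IsPr Q) (h : P * Q = 0) :
    (P + Q).rank = P.rank + Q.rank := by
  have h' := hP.mul_zero_comm hQ h
  obtain ⟨U, W, h1, h2⟩ := exists_factor hP.2
  obtain ⟨U', W', h1', h2'⟩ := exists_factor hQ.2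
  have hWU : W * U' = 0 := by
    calc W * U' = (W * U) * W * (U' * (W' * U')) := by rw [h2, h2']; simp
      _ = W * ((U * W) * (U' * W')) * U' := by simp only [Matrix.mul_assoc]
      _ = 0 := by rw [h1, h1', h]; simp
  have hWU' : W' * U = 0 := by
    calc W' * U = (W' * U') * W' * (U * (W * U)) := by rw [h2, h2']; simp
      _ = W' * ((U' * W') * (U * W)) * U := by simp only [Matrix.mul_assoc]
      _ = 0 := by rw [h1, h1', h']; simp
  have e1 : fromCols U U' * fromRows W W' = P + Q := by
    rw [fromCols_mul_fromRows, h1, h1']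
  have e2 : fromRows W W' * fromCols U U' = 1 := by
    rw [fromRows_mul_fromCols, h2, h2', hWU, hWU', fromBlocks_one]
  apply le_antisymm
  · rw [← e1]
    refine (rank_mul_le_left _ _).trans ((rank_le_card_width _).trans (by simp))
  · have e3 : fromRows W W' * (P + Q) * fromCols U U' = 1 := by
      rw [← e1, ← Matrix.mul_assoc, e2, Matrix.one_mul, e2]
    have := rank_one (n := Fin P.rank ⊕ Fin Q.rank) (R := ZMod 2)
    rw [← e3] at this
    have h4 := (rank_mul_le_left (fromRows W W' * (P + Q)) (fromCols U U')).trans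
      (rank_mul_le_right _ _)
    rw [this] at h4
    simpa using h4

lemma card_matrix_z2 (α β : Type) [Fintype α] [DecidableEq α] [Fintype β] [DecidableEq β] :
    Fintype.card (Matrix α β (ZMod 2)) = 2 ^ (Fintype.card α * Fintype.card β) := by
  change Fintype.card (α → β → ZMod 2) = _
  simp [← pow_mul, mul_comm]

lemma fr_cost {P : Matrix μ μ (ZMod 2)} (hP : IsPr P) {c : ℝ} (hc : HC (Fintype.card κ) c) :
    Cost (fr κ P).mulVec (P.rank * c * Fintype.card (Matrix μ κ (ZMod 2))) := by
  obtain ⟨U, W, h1, h2⟩ := exists_factor hP.2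
  have hPP : ∀ y : Matrix μ κ (ZMod 2), P * (P * y) = P * y := fun y => by
    rw [← Matrix.mul_assoc, hP.2]
  have hWU : ∀ b : Matrix (Fin P.rank) κ (ZMod 2), W * (U * b) = b := fun b => by
    rw [← Matrix.mul_assoc, h2, Matrix.one_mul]
  have hUW : ∀ y : Matrix μ κ (ZMod 2), U * (W * y) = P * y := fun y => by
    rw [← Matrix.mul_assoc, h1]
  have hPU : ∀ b : Matrix (Fin P.rank) κ (ZMod 2), P * (U * b) = U * b := fun b => by
    rw [← hUW, hWU]
  have hW0 : ∀ y : Matrix μ κ (ZMod 2), P * y = 0 → W * y = 0 := fun y hy => by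
    rw [← hWU (W * y), hUW, hy, Matrix.mul_zero]
  let T := {z : Matrix μ κ (ZMod 2) // P * z = 0}
  let e : T × Matrix (Fin P.rank) κ (ZMod 2) ≃ Matrix μ κ (ZMod 2) :=
    { toFun := fun p => p.1.1 + U * p.2
      invFun := fun y => (⟨y - P * y, by rw [Matrix.mul_sub, hPP, sub_self]⟩, W * y)
      left_inv := by
        rintro ⟨⟨z, hz⟩, b⟩
        simp [Matrix.mul_add, hz, hPU, hWU, hW0 z hz]
      right_inv := by
        intro y
        simp [hUW] }
  let cur : (Fin P.rank × κ → ZMod 2) ≃ Matrix (Fin P.rank) κ (ZMod 2) :=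
    (Equiv.curry _ _ _).trans Matrix.of
  have hhad := (hc.mul P.rank).cost (Fin P.rank × κ) (by simp)
  have key := Cost.blocks (W := T) (I' := fun _ => Fin P.rank × κ → ZMod 2)
    (J' := fun _ => Fin P.rank × κ → ZMod 2) (fun _ => had (Fin P.rank × κ)) _ (fun _ => hhad)
    (fun z b => z.1 + U * cur b) (L := (fr κ P).mulVec) (by
      intro x
      refine ⟨(e.symm x).1, cur.symm (Uᵀ * (P * x)), fun v => ?_⟩
      simp only [mulVec, dotProduct, had]
      rw [← e.sum_comp, Fintype.sum_prod_type, Finset.sum_eq_single (e.symm x).1]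
      · rw [← cur.sum_comp]
        refine Finset.sum_congr rfl fun b _ => ?_
        have e1 : e ((e.symm x).1, cur b) = (x - P * x) + U * cur b := rfl
        have e2 : ((e.symm x).1 : Matrix μ κ (ZMod 2)) = x - P * x := rfl
        rw [e1, e2]
        congr 1
        have e3 : P * (x - P * x + U * cur b) = U * cur b := by
          rw [Matrix.mul_add, Matrix.mul_sub, hPP, sub_self, zero_add, hPU]
        simp only [fr, of_apply, e3]
        rw [if_pos (by abel), bil_comm, bil_mul_left, bil_comm, bil_eq_sum]
        rfl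
      · intro z _ hz
        refine Finset.sum_eq_zero fun b _ => ?_
        have e1 : e (z, b) = z.1 + U * b := rfl
        have e3 : P * (z.1 + U * b) = U * b := by
          rw [Matrix.mul_add, z.2, zero_add, hPU]
        simp only [fr, of_apply, e1, e3]
        rw [if_neg, zero_mul]
        intro h
        apply hz
        ext1
        have e2 : ((e.symm x).1 : Matrix μ κ (ZMod 2)) = x - P * x := rfl
        rw [e2, h]; abel
      · simp)
  refine key.mono (le_of_eq ?_)
  rw [← Fintype.card_congr e, Fintype.card_prod, card_matrix_z2]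
  simp
  ring

lemma fr_one_cost {s : ℝ} {Ω : Type} (h : Cost (batch Ω (fr κ (1 : Matrix μ μ (ZMod 2))).mulVec) s)
    {j : ℕ} (hj : Fintype.card μ * Fintype.card κ = j) : Cost (batch Ω (had (Fin j))) s := by
  let e : Fin j ≃ μ × κ := (Fintype.equivFinOfCardEq (by simpa using hj)).symm
  let cur : (μ × κ → ZMod 2) ≃ Matrix μ κ (ZMod 2) := (Equiv.curry _ _ _).trans Matrix.of
  refine Cost.reindex h (fun p => (p.1, cur.symm p.2 ∘ e)) (fun p => ⟨(p.1, cur (p.2 ∘ e.symm)),
    fun x => ?_⟩)
  simp only [batch]
  rw [had_equiv e.symm]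
  simp only [mulVec, dotProduct, had]
  rw [← cur.sum_comp]
  refine Finset.sum_congr rfl fun b _ => ?_
  simp only [fr, of_apply, Matrix.one_mul, sub_self, if_true, bil_eq_sum, Equiv.symm_apply_apply,
    Equiv.symm_symm]
  rfl

end Crest.Agent.R324
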