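import Crest.Agent.R324.Cost

set_option autoImplicit false

/-! Walsh–Hadamard operators and block-Hadamard matrices. -/

namespace Crest.Agent.R324

open Finset Matrix Kronecker

/-- The sign character of `ZMod 2`. -/
noncomputable def chi (a : ZMod 2) : ℂ := if a = 0 then 1 else -1

@[simp] lemma chi_zero : chi 0 = 1 := by simp [chi]

@[simp] lemma chi_one : chi 1 = -1 := by simp [chi]

lemma zmod2_cases (a : ZMod 2) : a = 0 ∨ a = 1 := by
  revert a; decide

lemma chi_add (a b : ZMod 2) : chi (a + b) = chi a * chi b := by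
  have h11 : (1 + 1 : ZMod 2) = 0 := by decide
  rcases zmod2_cases a with rfl | rfl <;> rcases zmod2_cases b with rfl | rfl <;> simp [h11]

lemma chi_mul_self (a : ZMod 2) : chi a * chi a = 1 := by
  rcases zmod2_cases a with rfl | rfl <;> simp

/-- The (unnormalised) Walsh–Hadamard operator. -/
noncomputable def had (κ : Type) [Fintype κ] [DecidableEq κ] (x : (κ → ZMod 2) → ℂ)
    (a : κ → ZMod 2) : ℂ := ∑ b, chi (a ⬝ᵥ b) * x b

/-- The Walsh–Hadamard operator on `j` bits costs at most `c` gates per entry. -/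
def HC (j : ℕ) (c : ℝ) : Prop := Cost (had (Fin j)) (c * 2 ^ j)

/-- An operator applied to each of several arrays. -/
def batch (Ω : Type) {I J : Type} (L : (J → ℂ) → I → ℂ) (x : Ω × J → ℂ) (p : Ω × I) : ℂ :=
  L (fun j => x (p.1, j)) p.2

lemma Cost.batch (Ω : Type) [Fintype Ω] {I J : Type} {L : (J → ℂ) → I → ℂ} {s : ℝ}
    (h : Cost L s) : Cost (batch Ω L) (Fintype.card Ω * s) := by
  have := Cost.blocks (W := Ω) (I' := fun _ => I) (J' := fun _ => J) (fun _ => L) (fun _ => s)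
    (fun _ => h) (fun w j => (w, j)) (L := R324.batch Ω L) (fun p => ⟨p.1, p.2, fun _ => rfl⟩)
  simpa using this

lemma had_equiv {κ κ' : Type} [Fintype κ] [DecidableEq κ] [Fintype κ'] [DecidableEq κ']
    (e : κ ≃ κ') (x : (κ' → ZMod 2) → ℂ) (a : κ' → ZMod 2) :
    had κ' x a = had κ (fun b => x (b ∘ e.symm)) (a ∘ e) := by
  unfold had
  refine (Fintype.sum_equiv (Equiv.arrowCongr e (Equiv.refl _)) _ _ ?_).symm
  intro b
  have h1 : (Equiv.arrowCongr e (Equiv.refl (ZMod 2))) b = b ∘ e.symm := by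
    ext i; simp [Equiv.arrowCongr]
  rw [h1]
  congr 2
  unfold dotProduct
  exact Fintype.sum_equiv e _ _ (fun i => by simp)

lemma HC.cost {j : ℕ} {c : ℝ} (h : HC j c) (κ : Type) [Fintype κ] [DecidableEq κ]
    (hκ : Fintype.card κ = j) : Cost (had κ) (c * 2 ^ j) := by
  have e : Fin j ≃ κ := (Fintype.equivFinOfCardEq hκ).symm
  exact Cost.reindex h (fun b => b ∘ e.symm) (fun a => ⟨a ∘ e, fun x => had_equiv e x a⟩)

lemma had_append {n n' : ℕ} (x : (Fin (n + n') → ZMod 2) → ℂ) (a : Fin n → ZMod 2)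
    (a' : Fin n' → ZMod 2) :
    had (Fin (n + n')) x (Fin.append a a') =
      had (Fin n) (fun b => had (Fin n') (fun b' => x (Fin.append b b')) a') a := by
  unfold had
  rw [← (Fin.appendEquiv n n').sum_comp, Fintype.sum_prod_type]
  refine Finset.sum_congr rfl fun b _ => ?_
  rw [Finset.mul_sum]
  refine Finset.sum_congr rfl fun b' _ => ?_
  have : (Fin.appendEquiv n n') (b, b') = Fin.append b b' := rfl
  rw [this, ← mul_assoc, ← chi_add]
  congr 2
  simp [dotProduct, Fin.sum_univ_add]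

lemma had_add_cost {n n' : ℕ} {s t : ℝ} (h1 : Cost (batch (Fin n → ZMod 2) (had (Fin n'))) s)
    (h2 : Cost (had (Fin n)) t) : Cost (had (Fin (n + n'))) (2 ^ n' * t + s) := by
  have hA : Cost (fun (y : (Fin n → ZMod 2) × (Fin n' → ZMod 2) → ℂ) (u : Fin (n + n') → ZMod 2) =>
      had (Fin n) (fun b => y (b, fun i => u (Fin.natAdd n i))) (fun i => u (Fin.castAdd n' i)))
      (2 ^ n' * t) := by
    have := Cost.blocks (W := Fin n' → ZMod 2) (I' := fun _ => Fin n → ZMod 2)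
      (J' := fun _ => Fin n → ZMod 2) (fun _ => had (Fin n)) (fun _ => t) (fun _ => h2)
      (fun w b => (b, w))
      (L := fun (y : (Fin n → ZMod 2) × (Fin n' → ZMod 2) → ℂ) (u : Fin (n + n') → ZMod 2) =>
        had (Fin n) (fun b => y (b, fun i => u (Fin.natAdd n i))) (fun i => u (Fin.castAdd n' i)))
      (fun u => ⟨fun i => u (Fin.natAdd n i), fun i => u (Fin.castAdd n' i), fun _ => rfl⟩)
    simpa using this
  have hB := hA.comp h1
  refine Cost.reindex hB (fun p => Fin.append p.1 p.2) (fun u => ⟨u, fun x => ?_⟩)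
  conv_lhs => rw [← Fin.append_castAdd_natAdd (f := u)]
  rw [had_append]
  rfl

lemma HC.add {a b : ℕ} {c d : ℝ} (h1 : HC a c) (h2 : HC b d) : HC (a + b) (c + d) := by
  have := had_add_cost (h2.batch (Fin a → ZMod 2)) h1
  refine this.mono (le_of_eq ?_)
  simp [pow_add]; ring

lemma HC.zero : HC 0 0 := by
  unfold HC
  rw [zero_mul]
  refine Cost.sel fun a => Or.inl ⟨default, fun x => ?_⟩
  simp only [had, dotProduct, Finset.univ_eq_empty, Finset.sum_empty, chi_zero, one_mul]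
  rw [Fintype.sum_unique]
  exact congrArg x (Subsingleton.elim _ _)

lemma HC.one : HC 1 4 := by
  have := Cost.sparse (W := Fin 1 → ZMod 2) (L := had (Fin 1))
    (fun a => ⟨fun b => chi (a ⬝ᵥ b), id, fun _ => rfl⟩)
  refine this.mono (le_of_eq ?_)
  simp; norm_num

lemma HC.mul {k : ℕ} {c : ℝ} (h : HC k c) (d : ℕ) : HC (d * k) (d * c) := by
  induction d with
  | zero => simpa using HC.zero
  | succ d ih =>
    have := ih.add h
    rw [Nat.succ_mul]
    push_cast
    rwa [add_mul, one_mul]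

lemma HC.triv (j : ℕ) : HC j (4 * j) := by
  have := HC.one.mul j
  rwa [mul_one, mul_comm] at this

lemma HC.mono {j : ℕ} {c d : ℝ} (h : HC j c) (hcd : c ≤ d) : HC j d :=
  Cost.mono h (mul_le_mul_of_nonneg_right hcd (by positivity))

lemma HC.nonneg {j : ℕ} {c : ℝ} (h : HC j c) : 0 ≤ c := by
  have := Cost.nonneg h
  exact nonneg_of_mul_nonneg_left this (by positivity)

/-- Block-Hadamard matrices with blocks on at most `r` bits. -/
def HB {I : Type} [Fintype I] (r : ℕ) (E : Matrix I I ℂ) : Prop :=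
  ∃ (T : Type) (_ : Fintype T) (n : T → ℕ) (g : (t : T) → (Fin (n t) → ZMod 2) → I),
    (∀ t, n t ≤ r) ∧ (∑ t, 2 ^ n t ≤ Fintype.card I) ∧
      ∀ i, ∃ t a, ∀ x, (E *ᵥ x) i = had (Fin (n t)) (fun b => x (g t b)) a

section HB

variable {I J : Type} [Fintype I] [Fintype J]

lemma HB.cost {r : ℕ} {c : ℝ} (hc : ∀ j ≤ r, HC j c) {E : Matrix I I ℂ} (h : HB r E) :
    Cost E.mulVec (c * Fintype.card I) := by
  obtain ⟨T, _, n, g, hn, hcard, hrow⟩ := h
  have h0 : 0 ≤ c := (hc 0 (Nat.zero_le _)).nonneg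
  have := Cost.blocks (W := T) (fun t => had (Fin (n t))) (fun t => c * 2 ^ n t)
    (fun t => hc _ (hn t)) g hrow
  refine this.mono ?_
  rw [← Finset.mul_sum]
  refine mul_le_mul_of_nonneg_left ?_ h0
  exact_mod_cast hcard

lemma HB.mono {r r' : ℕ} {E : Matrix I I ℂ} (h : HB r E) (hr : r ≤ r') : HB r' E := by
  obtain ⟨T, _, n, g, hn, hcard, hrow⟩ := h
  exact ⟨T, inferInstance, n, g, fun t => (hn t).trans hr, hcard, hrow⟩

lemma HB.one [DecidableEq I] (r : ℕ) : HB r (1 : Matrix I I ℂ) := by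
  refine ⟨I, inferInstance, fun _ => 0, fun i _ => i, fun _ => Nat.zero_le _, by simp, ?_⟩
  intro i
  refine ⟨i, default, fun x => ?_⟩
  simp [had, dotProduct]

lemma kron_mulVec {I' J' : Type} [Fintype J'] (A : Matrix I' I ℂ) (B : Matrix J' J ℂ)
    (x : I × J → ℂ) (i : I') (j : J') :
    ((A ⊗ₖ B) *ᵥ x) (i, j) = (A *ᵥ fun i' => (B *ᵥ fun j' => x (i', j')) j) i := by
  simp only [mulVec, dotProduct, kroneckerMap_apply, Fintype.sum_prod_type, Finset.mul_sum,
    mul_assoc]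

lemma HB.kron {r r' : ℕ} {E : Matrix I I ℂ} {E' : Matrix J J ℂ} (h : HB r E) (h' : HB r' E') :
    HB (r + r') (E ⊗ₖ E') := by
  obtain ⟨T, _, n, g, hn, hcard, hrow⟩ := h
  obtain ⟨T', _, n', g', hn', hcard', hrow'⟩ := h'
  refine ⟨T × T', inferInstance, fun t => n t.1 + n' t.2,
    fun t b => (g t.1 (fun i => b (Fin.castAdd _ i)), g' t.2 (fun i => b (Fin.natAdd _ i))),
    fun t => add_le_add (hn _) (hn' _), ?_, ?_⟩
  · rw [Fintype.card_prod, Fintype.sum_prod_type]
    simp_rw [pow_add, ← Finset.mul_sum, ← Finset.sum_mul]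
    exact Nat.mul_le_mul hcard hcard'
  · rintro ⟨i, j⟩
    obtain ⟨t, a, ht⟩ := hrow i
    obtain ⟨t', a', ht'⟩ := hrow' j
    refine ⟨(t, t'), Fin.append a a', fun x => ?_⟩
    rw [kron_mulVec, ht, had_append]
    simp [ht']

lemma HB.reindex {r : ℕ} {E : Matrix I I ℂ} (h : HB r E) (e : J ≃ I) :
    HB r (E.submatrix e e) := by
  obtain ⟨T, _, n, g, hn, hcard, hrow⟩ := h
  refine ⟨T, inferInstance, n, fun t b => e.symm (g t b), hn, by rwa [Fintype.card_congr e], ?_⟩
  intro j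
  obtain ⟨t, a, ht⟩ := hrow (e j)
  refine ⟨t, a, fun x => ?_⟩
  rw [submatrix_mulVec_equiv]
  exact ht _

lemma HB.sum {r : ℕ} {E : Matrix I I ℂ} {E' : Matrix J J ℂ} (h : HB r E) (h' : HB r E') :
    HB r (fromBlocks E 0 0 E') := by
  obtain ⟨T, _, n, g, hn, hcard, hrow⟩ := h
  obtain ⟨T', _, n', g', hn', hcard', hrow'⟩ := h'
  refine ⟨T ⊕ T', inferInstance, Sum.elim n n',
    fun t => match t with
      | Sum.inl t => fun b => Sum.inl (g t b)
      | Sum.inr t => fun b => Sum.inr (g' t b), ?_, ?_, ?_⟩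
  · rintro (t | t)
    · exact hn t
    · exact hn' t
  · rw [Fintype.card_sum, Fintype.sum_sum_type]
    exact add_le_add hcard hcard'
  · rintro (i | j)
    · obtain ⟨t, a, ht⟩ := hrow i
      refine ⟨Sum.inl t, a, fun x => ?_⟩
      rw [fromBlocks_mulVec]
      simp only [Sum.elim_inl, zero_mulVec, add_zero]
      exact ht (x ∘ Sum.inl)
    · obtain ⟨t, a, ht⟩ := hrow' j
      refine ⟨Sum.inr t, a, fun x => ?_⟩
      rw [fromBlocks_mulVec]
      simp only [Sum.elim_inr, zero_mulVec, zero_add]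
      exact ht (x ∘ Sum.inr)

/-- The two by two Hadamard matrix. -/
def H2 : Matrix (Fin 2) (Fin 2) ℂ := !![1, 1; 1, -1]

lemma HB.h2 : HB 1 H2 := by
  refine ⟨Unit, inferInstance, fun _ => 1, fun _ b => (b 0 : ZMod 2), fun _ => le_rfl, by simp, ?_⟩
  intro i
  refine ⟨(), fun _ => (i : ZMod 2), fun x => ?_⟩
  unfold had
  rw [← (Equiv.funUnique (Fin 1) (ZMod 2)).symm.sum_comp]
  have : ∀ f : ZMod 2 → ℂ, ∑ b, f b = f 0 + f 1 := fun f => Fin.sum_univ_two f
  rw [this]
  have h0 : chi (0 : Fin 2) = 1 := chi_zero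
  have h1 : chi (1 : Fin 2) = -1 := chi_one
  fin_cases i
  · simp [H2, mulVec, dotProduct, h0]; rfl
  · simp [H2, mulVec, dotProduct, h1]; rfl

end HB

end Crest.Agent.R324
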