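import Crest.Agent.R324.Frame
import Crest.Agent.R324.Lift

set_option autoImplicit false
set_option linter.unusedSectionVars false

/-! Networks of arrays carrying frames: a small calculus and its soundness. -/

namespace Crest.Agent.R324

open Finset Matrix Kronecker

variable {μ : Type} [Fintype μ] [DecidableEq μ]

/-- Order between symmetric idempotents. -/
def PLe (P Q : Matrix μ μ (ZMod 2)) : Prop := IsPr P ∧ IsPr Q ∧ P * Q = P

lemma PLe.mul_left {P Q : Matrix μ μ (ZMod 2)} (h : PLe P Q) : Q * P = P := by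
  have := congrArg transpose h.2.2
  rwa [transpose_mul, h.1.1, h.2.1.1] at this

lemma PLe.isPr_sub {P Q : Matrix μ μ (ZMod 2)} (h : PLe P Q) : IsPr (Q - P) := by
  refine ⟨by rw [transpose_sub, h.1.1, h.2.1.1], ?_⟩
  rw [sub_mul, mul_sub, mul_sub, h.2.1.2, h.mul_left, h.2.2, h.1.2]
  simp

lemma PLe.sub_mul {P Q : Matrix μ μ (ZMod 2)} (h : PLe P Q) : (Q - P) * P = 0 := by
  rw [_root_.sub_mul, h.mul_left, h.1.2, sub_self]

lemma PLe.rank {P Q : Matrix μ μ (ZMod 2)} (h : PLe P Q) : Q.rank = (Q - P).rank + P.rank := by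
  rw [← rank_add_of_orth h.isPr_sub h.1 h.sub_mul, sub_add_cancel]

lemma PLe.fr {κ : Type} [Fintype κ] [DecidableEq κ] {P Q : Matrix μ μ (ZMod 2)} (h : PLe P Q) :
    fr κ (Q - P) * fr κ P = fr κ Q := by
  rw [fr_mul h.isPr_sub h.1 h.sub_mul, sub_add_cancel]

lemma IsPr.zero : IsPr (0 : Matrix μ μ (ZMod 2)) := ⟨by simp, by simp⟩

lemma IsPr.one : IsPr (1 : Matrix μ μ (ZMod 2)) := ⟨by simp, by simp⟩

lemma IsPr.le_refl {P : Matrix μ μ (ZMod 2)} (h : IsPr P) : PLe P P := ⟨h, h, h.2⟩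

lemma IsPr.zero_le {P : Matrix μ μ (ZMod 2)} (h : IsPr P) : PLe 0 P := ⟨IsPr.zero, h, by simp⟩

lemma IsPr.le_one {P : Matrix μ μ (ZMod 2)} (h : IsPr P) : PLe P 1 := ⟨h, IsPr.one, by simp⟩

lemma IsPr.one_sub {P : Matrix μ μ (ZMod 2)} (h : IsPr P) : IsPr (1 - P) := h.le_one.isPr_sub

/-- A frame change with excess `e`. -/
def Edge (P Q : Matrix μ μ (ZMod 2)) (e : ℕ) : Prop :=
  P = Q ∨ PLe P Q ∨ (PLe Q P ∧ 2 * (P - Q).rank ≤ e)

/-- A gate matrix only mixes wires with equal frames. -/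
def Resp {Ω : Type} (G : Matrix Ω Ω ℂ) (P : Ω → Matrix μ μ (ZMod 2)) : Prop :=
  ∀ w w', G w w' ≠ 0 → P w = P w'

/-- Networks: initial frames, final frames, scalar action, excess. -/
inductive Net {μ : Type} [Fintype μ] [DecidableEq μ] {Ω : Type} [Fintype Ω] [DecidableEq Ω] :
    (Ω → Matrix μ μ (ZMod 2)) → (Ω → Matrix μ μ (ZMod 2)) → Matrix Ω Ω ℂ → ℕ → Prop
  | gate {P : Ω → Matrix μ μ (ZMod 2)} {G : Matrix Ω Ω ℂ} : Resp G P → Net P P G 0
  | edge {P Q : Ω → Matrix μ μ (ZMod 2)} (e : Ω → ℕ) :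
      (∀ w, Edge (P w) (Q w) (e w)) → Net P Q 1 (∑ w, e w)
  | comp {P Q R : Ω → Matrix μ μ (ZMod 2)} {G G' : Matrix Ω Ω ℂ} {e e' : ℕ} :
      Net P Q G e → Net Q R G' e' → Net P R (G' * G) (e + e')

lemma Edge.sound {P Q : Matrix μ μ (ZMod 2)} {e : ℕ} (h : Edge P Q e) {k : ℕ} {c : ℝ}
    (hc : HC k c) :
    ∃ A : (Matrix μ (Fin k) (ZMod 2) → ℂ) → Matrix μ (Fin k) (ZMod 2) → ℂ,
      Cost A ((((Q.rank : ℝ) - P.rank + e) * c + 1) * Fintype.card (Matrix μ (Fin k) (ZMod 2))) ∧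
        ∀ v, A (fr (Fin k) P *ᵥ v) = fr (Fin k) Q *ᵥ v := by
  have hc0 := hc.nonneg
  have hc' : HC (Fintype.card (Fin k)) c := by simpa using hc
  have hX : (0 : ℝ) ≤ Fintype.card (Matrix μ (Fin k) (ZMod 2)) := Nat.cast_nonneg _
  rcases h with rfl | h | ⟨h, he⟩
  · refine ⟨fun v => v, (Cost.sel fun i => Or.inl ⟨i, fun _ => rfl⟩).mono ?_, fun _ => rfl⟩
    simp only [sub_self, zero_add]
    positivity
  · refine ⟨(fr (Fin k) (Q - P)).mulVec, (fr_cost h.isPr_sub hc').mono ?_, fun v => ?_⟩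
    · refine mul_le_mul_of_nonneg_right ?_ hX
      rw [h.rank]
      push_cast
      have : 0 ≤ (e : ℝ) * c := by positivity
      nlinarith
    · rw [mulVec_mulVec, h.fr]
  · obtain ⟨d, hd, hdd⟩ := fr_sq (κ := Fin k) h.isPr_sub
    have h1 : Cost (fun (v : Matrix μ (Fin k) (ZMod 2) → ℂ) x => (d x)⁻¹ * v x) _ :=
      Cost.scale fun x => ⟨(d x)⁻¹, x, fun _ => rfl⟩
    refine ⟨_, (h1.comp (fr_cost h.isPr_sub hc')).mono ?_, fun v => ?_⟩
    · have h2 : ((P - Q).rank : ℝ) ≤ (Q.rank : ℝ) - P.rank + e := by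
        rw [h.rank]
        have : (2 * (P - Q).rank : ℝ) ≤ e := by exact_mod_cast he
        push_cast
        linarith
      have h3 := mul_le_mul_of_nonneg_right (mul_le_mul_of_nonneg_right h2 hc0) hX
      linarith
    · funext x
      rw [mulVec_mulVec, ← h.fr, ← Matrix.mul_assoc, hdd, ← mulVec_mulVec, mulVec_diagonal,
        ← mul_assoc, inv_mul_cancel₀ (hd x), one_mul]

variable {Ω : Type} [Fintype Ω] [DecidableEq Ω]

/-- The frames applied wire by wire. -/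
noncomputable def Phi (k : ℕ) (P : Ω → Matrix μ μ (ZMod 2))
    (x : Ω × Matrix μ (Fin k) (ZMod 2) → ℂ) (p : Ω × Matrix μ (Fin k) (ZMod 2)) : ℂ :=
  (fr (Fin k) (P p.1) *ᵥ fun b => x (p.1, b)) p.2

/-- A scalar gate applied entry by entry. -/
noncomputable def gat {X : Type} (G : Matrix Ω Ω ℂ) (x : Ω × X → ℂ) (p : Ω × X) : ℂ :=
  ∑ w, G p.1 w * x (w, p.2)

lemma gat_cost {X : Type} [Fintype X] (G : Matrix Ω Ω ℂ) :
    Cost (gat (X := X) G) (2 * Fintype.card Ω * Fintype.card Ω * Fintype.card X) := by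
  have := Cost.sparse (W := Ω) (L := gat (X := X) G)
    (fun p => ⟨fun w => G p.1 w, fun w => (w, p.2), fun _ => rfl⟩)
  refine this.mono (le_of_eq ?_)
  simp; ring

lemma gat_mul {X : Type} (G G' : Matrix Ω Ω ℂ) (x : Ω × X → ℂ) :
    gat (G' * G) x = gat G' (gat G x) := by
  funext p
  simp only [gat, mul_apply, Finset.sum_mul, Finset.mul_sum, mul_assoc]
  exact Finset.sum_comm

lemma gat_one {X : Type} (x : Ω × X → ℂ) : gat (1 : Matrix Ω Ω ℂ) x = x := by
  funext p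
  simp [gat, one_apply]

theorem Net.sound {P Q : Ω → Matrix μ μ (ZMod 2)} {G : Matrix Ω Ω ℂ} {e : ℕ} (h : Net P Q G e) :
    ∃ g : ℝ, ∀ (k : ℕ) (c : ℝ), HC k c →
      ∃ O : (Ω × Matrix μ (Fin k) (ZMod 2) → ℂ) → Ω × Matrix μ (Fin k) (ZMod 2) → ℂ,
        Cost O ((((∑ w, ((Q w).rank : ℝ)) - (∑ w, ((P w).rank : ℝ)) + e) * c + g) *
          Fintype.card (Matrix μ (Fin k) (ZMod 2))) ∧
        ∀ x, O (Phi k P x) = Phi k Q (gat G x) := by
  induction h with
  | @gate P G hG =>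
    refine ⟨2 * Fintype.card Ω * Fintype.card Ω, fun k c _ => ⟨gat G, ?_, fun x => ?_⟩⟩
    · refine (gat_cost G).mono (le_of_eq ?_)
      simp
    · funext p
      simp only [gat, Phi, mulVec, dotProduct, Finset.mul_sum]
      rw [Finset.sum_comm]
      refine Finset.sum_congr rfl fun w _ => Finset.sum_congr rfl fun b _ => ?_
      by_cases h0 : G p.1 b = 0
      · simp [h0]
      · rw [hG _ _ h0]; ring
  | @edge P Q e he =>
    refine ⟨Fintype.card Ω, fun k c hc => ?_⟩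
    choose A hA hA' using fun w => (he w).sound hc
    refine ⟨fun x p => A p.1 (fun b => x (p.1, b)) p.2, ?_, fun x => ?_⟩
    · have := Cost.blocks (W := Ω) A _ hA (fun w b => (w, b))
        (L := fun x (p : Ω × Matrix μ (Fin k) (ZMod 2)) => A p.1 (fun b => x (p.1, b)) p.2)
        (fun p => ⟨p.1, p.2, fun _ => rfl⟩)
      refine this.mono (le_of_eq ?_)
      rw [← Finset.sum_mul, Finset.sum_add_distrib, ← Finset.sum_mul, Finset.sum_add_distrib,
        Finset.sum_sub_distrib]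
      simp
    · funext p
      rw [gat_one]
      exact congrFun (hA' p.1 (fun b => x (p.1, b))) p.2
  | @comp P Q R G G' e e' _ _ ih ih' =>
    obtain ⟨g, hg⟩ := ih
    obtain ⟨g', hg'⟩ := ih'
    refine ⟨g + g', fun k c hc => ?_⟩
    obtain ⟨O, hO, hO'⟩ := hg k c hc
    obtain ⟨O2, hO2, hO2'⟩ := hg' k c hc
    refine ⟨fun x => O2 (O x), (hO2.comp hO).mono (le_of_eq ?_), fun x => ?_⟩
    · push_cast; ring
    · simp only [hO', hO2', gat_mul]

theorem Net.final {P Q : Ω → Matrix μ μ (ZMod 2)} {G G' : Matrix Ω Ω ℂ} {e : ℕ}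
    (h : Net P Q G e) (hG : G' * G = 1) (hP : ∀ w, IsPr (P w)) (hQ : ∀ w, IsPr (Q w))
    (hPQ : ∀ w w', G w w' ≠ 0 → Q w * P w' = 0 ∧ Q w + P w' = 1) :
    ∃ g : ℝ, ∀ (k : ℕ) (c : ℝ), HC k c →
      Cost (batch Ω (had (Fin (Fintype.card μ * k))))
        ((((∑ w, ((Q w).rank : ℝ)) - (∑ w, ((P w).rank : ℝ)) + e) * c + g) *
          2 ^ (Fintype.card μ * k)) := by
  obtain ⟨g, hg⟩ := h.sound
  refine ⟨g + 2 * Fintype.card Ω * Fintype.card Ω + Fintype.card Ω, fun k c hc => ?_⟩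
  obtain ⟨O, hO, hO'⟩ := hg k c hc
  choose d hd hdd using fun w => fr_sq (κ := Fin k) (hP w)
  have h1 : Cost (fun (v : Ω × Matrix μ (Fin k) (ZMod 2) → ℂ) p => d p.1 p.2 * v p) _ :=
    Cost.scale fun p => ⟨d p.1 p.2, p, fun _ => rfl⟩
  have h2 := ((gat_cost G').comp hO).comp h1
  refine fr_one_cost (κ := Fin k) ((h2.congr fun x => ?_).mono (le_of_eq ?_)) (by simp)
  · have e1 : (fun p : Ω × Matrix μ (Fin k) (ZMod 2) => d p.1 p.2 * x p) = Phi k P (Phi k P x) := by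
      funext p
      have : (fun b => Phi k P x (p.1, b)) = fr (Fin k) (P p.1) *ᵥ fun b => x (p.1, b) := rfl
      rw [Phi, this, mulVec_mulVec, hdd, mulVec_diagonal]
    have e2 : Phi k Q (gat G (Phi k P x)) =
        gat G (batch Ω (fr (Fin k) (1 : Matrix μ μ (ZMod 2))).mulVec x) := by
      funext p
      have : (fun b => gat G (Phi k P x) (p.1, b)) =
          ∑ w, G p.1 w • (fr (Fin k) (P w) *ᵥ fun b => x (w, b)) := by
        funext b
        simp [gat, Phi, Finset.sum_apply]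
      rw [Phi, this, mulVec_sum, Finset.sum_apply, gat]
      refine Finset.sum_congr rfl fun w _ => ?_
      by_cases h0 : G p.1 w = 0
      · simp [h0]
      · obtain ⟨h3, h4⟩ := hPQ _ _ h0
        rw [mulVec_smul, mulVec_mulVec, fr_mul (hQ _) (hP _) h3, h4]
        rfl
    rw [e1, hO', e2, ← gat_mul, hG, gat_one]
  · rw [Fintype.card_prod, card_matrix_z2]
    simp
    ring

theorem Net.push {μ' : Type} [Fintype μ'] [DecidableEq μ'] {J : Type} [Fintype J] [DecidableEq J]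
    (f : J → Matrix μ μ (ZMod 2) → Matrix μ' μ' (ZMod 2))
    (hle : ∀ j q q', PLe q q' → PLe (f j q) (f j q'))
    (hrk : ∀ j q q', (f j q - f j q').rank ≤ (q - q').rank)
    {P Q : Ω → Matrix μ μ (ZMod 2)} {G : Matrix Ω Ω ℂ} {e : ℕ} (h : Net P Q G e) :
    Net (fun p : J × Ω => f p.1 (P p.2)) (fun p : J × Ω => f p.1 (Q p.2))
      ((1 : Matrix J J ℂ) ⊗ₖ G) (Fintype.card J * e) := by
  induction h with
  | @gate P G hG =>
    refine Net.gate ?_
    rintro ⟨j, w⟩ ⟨j', w'⟩ h0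
    rw [kroneckerMap_apply] at h0
    have h1 : j = j' := by
      by_contra hj
      exact h0 (by simp [one_apply_ne hj])
    subst h1
    simp only
    rw [hG w w' (right_ne_zero_of_mul h0)]
  | @edge P Q e he =>
    have := Net.edge (P := fun p : J × Ω => f p.1 (P p.2)) (Q := fun p : J × Ω => f p.1 (Q p.2))
      (fun p => e p.2) (by
        rintro ⟨j, w⟩
        rcases he w with h | h | ⟨h, h'⟩
        · exact Or.inl (by simp only [h])
        · exact Or.inr (Or.inl (hle _ _ _ h))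
        · exact Or.inr (Or.inr ⟨hle _ _ _ h, le_trans (Nat.mul_le_mul_left _ (hrk _ _ _)) h'⟩))
    rw [one_kronecker_one]
    convert this using 1
    simp [Fintype.sum_prod_type]
  | @comp P Q R G G' e e' _ _ ih ih' =>
    have := ih.comp ih'
    rwa [← mul_kronecker_mul, one_mul, ← mul_add] at this

theorem Net.embed {Ω' : Type} [Fintype Ω'] [DecidableEq Ω'] {ι : Ω → Ω'}
    (hι : Function.Injective ι) {P Q : Ω → Matrix μ μ (ZMod 2)} {G : Matrix Ω Ω ℂ} {e : ℕ}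
    (h : Net P Q G e) : ∀ (P' Q' : Ω' → Matrix μ μ (ZMod 2)), (∀ w, P' (ι w) = P w) →
      (∀ w, Q' (ι w) = Q w) → (∀ w', (∀ w, w' ≠ ι w) → P' w' = Q' w') →
      Net P' Q' (extd ι G) e := by
  induction h with
  | @gate P G hG =>
    intro P' Q' h1 h2 h3
    have : P' = Q' := by
      funext w'
      by_cases hw : ∃ w, w' = ι w
      · obtain ⟨w, rfl⟩ := hw
        rw [h1, h2]
      · exact h3 w' (fun w hw' => hw ⟨w, hw'⟩)
    subst this
    refine Net.gate fun a b h0 => ?_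
    by_cases hab : a = b
    · rw [hab]
    · rw [extd, Matrix.add_apply, one_apply_ne hab, zero_add] at h0
      obtain ⟨w, w', rfl, rfl, h00⟩ := lift_ne_zero h0
      rw [h1, h1]
      refine hG _ _ ?_
      rwa [Matrix.sub_apply, one_apply_ne (fun h => hab (congrArg ι h)), sub_zero] at h00
  | @edge P Q e he =>
    intro P' Q' h1 h2 h3
    have := Net.edge (P := P') (Q := Q') (Function.extend ι e 0) (by
      intro w'
      by_cases hw : ∃ w, w' = ι w
      · obtain ⟨w, rfl⟩ := hw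
        rw [h1, h2, hι.extend_apply]
        exact he w
      · exact Or.inl (h3 w' (fun w hw' => hw ⟨w, hw'⟩)))
    rw [extd_one]
    convert this using 1
    refine Fintype.sum_of_injective ι hι _ _ (fun i hi => ?_) (fun i => ?_)
    · rw [Function.extend_apply' _ _ _ (by simpa using hi)]; rfl
    · rw [hι.extend_apply]
  | @comp P Q R G G' e e' _ _ ih ih' =>
    intro P' R' h1 h2 h3
    rw [← extd_mul hι]
    refine (ih P' (Function.extend ι Q P') h1 (fun w => hι.extend_apply _ _ _) ?_).comp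
      (ih' _ R' (fun w => hι.extend_apply _ _ _) h2 ?_)
    · intro w' hw
      rw [Function.extend_apply' _ _ _ (by rintro ⟨w, rfl⟩; exact hw w rfl)]
    · intro w' hw
      rw [Function.extend_apply' _ _ _ (by rintro ⟨w, rfl⟩; exact hw w rfl)]
      exact h3 w' hw

theorem Net.up {P Q : Ω → Matrix μ μ (ZMod 2)} (h : ∀ w, P w = Q w ∨ PLe (P w) (Q w)) :
    Net P Q 1 0 := by
  have := Net.edge (P := P) (Q := Q) (fun _ => 0) (fun w => by
    rcases h w with h | h
    · exact Or.inl h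
    · exact Or.inr (Or.inl h))
  simpa using this

theorem Net.upGate {P Q : Ω → Matrix μ μ (ZMod 2)} {G : Matrix Ω Ω ℂ}
    (h : ∀ w, P w = Q w ∨ PLe (P w) (Q w)) (hG : Resp G Q) : Net P Q G 0 := by
  have := (Net.up h).comp (Net.gate hG)
  simpa using this

theorem Net.stage {Ω' : Type} [Fintype Ω'] [DecidableEq Ω'] {ι : Ω → Ω'}
    (hι : Function.Injective ι) {P Q : Ω → Matrix μ μ (ZMod 2)} {G : Matrix Ω Ω ℂ} {e : ℕ}
    (h : Net P Q G e) (A B : Ω' → Matrix μ μ (ZMod 2)) (hA : ∀ w, PLe (A (ι w)) (P w))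
    (hB : ∀ w, PLe (Q w) (B (ι w))) (hAB : ∀ w', (∀ w, w' ≠ ι w) → A w' = B w') :
    Net A B (extd ι G) e := by
  have h1 : Net (fun w => A (ι w)) P 1 0 := Net.up fun w => Or.inr (hA w)
  have h2 : Net Q (fun w => B (ι w)) 1 0 := Net.up fun w => Or.inr (hB w)
  have h3 := (h1.comp h).comp h2
  simp only [mul_one, one_mul, zero_add, add_zero] at h3
  exact h3.embed hι A B (fun _ => rfl) (fun _ => rfl) hAB

lemma Resp.one (P : Ω → Matrix μ μ (ZMod 2)) : Resp 1 P := fun w w' h => by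
  by_cases hw : w = w'
  · rw [hw]
  · exact absurd (one_apply_ne hw) h

lemma Resp.add {P : Ω → Matrix μ μ (ZMod 2)} {G G' : Matrix Ω Ω ℂ} (h : Resp G P)
    (h' : Resp G' P) : Resp (G + G') P := fun w w' h0 => by
  by_cases h1 : G w w' = 0
  · refine h' w w' ?_
    rwa [Matrix.add_apply, h1, zero_add] at h0
  · exact h w w' h1

lemma Resp.neg {P : Ω → Matrix μ μ (ZMod 2)} {G : Matrix Ω Ω ℂ} (h : Resp G P) :
    Resp (-G) P := fun w w' h0 => h w w' (by simpa using h0)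

lemma Resp.sub {P : Ω → Matrix μ μ (ZMod 2)} {G G' : Matrix Ω Ω ℂ} (h : Resp G P)
    (h' : Resp G' P) : Resp (G - G') P := by
  rw [sub_eq_add_neg]; exact h.add h'.neg

lemma Resp.transpose {P : Ω → Matrix μ μ (ZMod 2)} {G : Matrix Ω Ω ℂ} (h : Resp G P) :
    Resp Gᵀ P := fun w w' h0 => (h w' w h0).symm

lemma Resp.lift {P : Ω → Matrix μ μ (ZMod 2)} {A B : Type} [Fintype A] [Fintype B]
    {e : A → Ω} {f : B → Ω} {M : Matrix A B ℂ} (h : ∀ a b, M a b ≠ 0 → P (e a) = P (f b)) :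
    Resp (lift e f M) P := fun w w' h0 => by
  obtain ⟨a, b, rfl, rfl, h1⟩ := lift_ne_zero h0
  exact h a b h1

end Crest.Agent.R324
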