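import Crest.Agent.R324.Tri

set_option autoImplicit false
set_option linter.unusedSectionVars false

/-! The Fourier matrix of any order as a product of triangular Toeplitz and diagonal matrices. -/

namespace Crest.Agent.R324

open Finset Matrix Kronecker

/-- q-factorial -/
noncomputable def qf (ω : ℂ) (n : ℕ) : ℂ := ∏ l ∈ range n, (ω ^ (l + 1) - 1)

/-- q-binomial coefficients -/
noncomputable def qb (ω : ℂ) : ℕ → ℕ → ℂ
  | _, 0 => 1
  | 0, _ + 1 => 0
  | k + 1, i + 1 => qb ω k i + ω ^ (i + 1) * qb ω k (i + 1)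

/-- Newton basis -/
noncomputable def nw (ω : ℂ) (i : ℕ) (x : ℂ) : ℂ := ∏ l ∈ range i, (x - ω ^ l)

lemma qb_zero (ω : ℂ) (k : ℕ) : qb ω k 0 = 1 := by cases k <;> simp [qb]

lemma qb_of_lt (ω : ℂ) : ∀ k i, k < i → qb ω k i = 0 := by
  intro k
  induction k with
  | zero => intro i hi; obtain ⟨i, rfl⟩ := Nat.exists_eq_succ_of_ne_zero hi.ne'; simp [qb]
  | succ k ih =>
    intro i hi
    obtain ⟨i, rfl⟩ := Nat.exists_eq_succ_of_ne_zero (by omega : i ≠ 0)
    rw [qb, ih i (by omega), ih (i + 1) (by omega)]; simp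

lemma pow_eq_sum_qb (ω x : ℂ) (k : ℕ) : x ^ k = ∑ i ∈ range (k + 1), qb ω k i * nw ω i x := by
  induction k with
  | zero => simp [qb, nw]
  | succ k ih =>
    have h1 : ∀ i, x * nw ω i x = nw ω (i + 1) x + ω ^ i * nw ω i x := fun i => by
      rw [nw, nw, Finset.prod_range_succ]; ring
    have h2 : x ^ (k + 1) = ∑ i ∈ range (k + 1), qb ω k i * nw ω (i + 1) x +
        ∑ i ∈ range (k + 1), ω ^ i * qb ω k i * nw ω i x := by
      rw [pow_succ', ih, Finset.mul_sum, ← Finset.sum_add_distrib]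
      refine Finset.sum_congr rfl fun i _ => ?_
      rw [mul_left_comm, h1]; ring
    have h3 : ∑ i ∈ range (k + 1), ω ^ i * qb ω k i * nw ω i x =
        ∑ i ∈ range (k + 1), ω ^ (i + 1) * qb ω k (i + 1) * nw ω (i + 1) x + 1 := by
      rw [Finset.sum_range_succ', Finset.sum_range_succ, qb_of_lt ω k (k + 1) (by omega), qb_zero]
      simp [nw]
    rw [h2, h3, Finset.sum_range_succ' _ (k + 1), qb_zero, ← add_assoc, ← Finset.sum_add_distrib]
    congr 1
    · refine Finset.sum_congr rfl fun i _ => ?_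
      rw [qb]; ring
    · simp [nw]

lemma qf_succ (ω : ℂ) (n : ℕ) : qf ω (n + 1) = qf ω n * (ω ^ (n + 1) - 1) :=
  Finset.prod_range_succ _ _

lemma qb_mul (ω : ℂ) : ∀ k i, i ≤ k → qb ω k i * qf ω i * qf ω (k - i) = qf ω k := by
  intro k
  induction k with
  | zero => intro i hi; obtain rfl : i = 0 := by omega
            simp [qb, qf]
  | succ k ih =>
    intro i hi
    rcases i with _ | i
    · simp [qb_zero, qf]
    · rw [qb, Nat.add_sub_add_right]
      have h1 := ih i (by omega)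
      by_cases hik : i + 1 ≤ k
      · have h2 := ih (i + 1) hik
        obtain ⟨m, rfl⟩ : ∃ m, k = i + 1 + m := ⟨k - (i + 1), by omega⟩
        rw [show i + 1 + m - i = m + 1 by omega] at h1 ⊢
        rw [show i + 1 + m - (i + 1) = m by omega] at h2
        rw [qf_succ ω (i + 1 + m), qf_succ ω m] at *
        rw [qf_succ ω i] at *
        linear_combination (ω ^ (i + 1) - 1) * h1 + ω ^ (i + 1) * (ω ^ (m + 1) - 1) * h2
      · obtain rfl : i = k := by omega
        rw [qb_of_lt ω i (i + 1) (by omega), qf_succ]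
        linear_combination (ω ^ (i + 1) - 1) * h1

lemma nw_mul (ω : ℂ) (j : ℕ) : ∀ i, i ≤ j →
    nw ω i (ω ^ j) * qf ω (j - i) = (∏ l ∈ range i, ω ^ l) * qf ω j := by
  intro i
  induction i with
  | zero => simp [nw]
  | succ i ih =>
    intro hi
    have h1 := ih (by omega)
    obtain ⟨m, rfl⟩ : ∃ m, j = i + 1 + m := ⟨j - (i + 1), by omega⟩
    rw [show i + 1 + m - i = m + 1 by omega, qf_succ] at h1
    rw [show i + 1 + m - (i + 1) = m by omega, nw, Finset.prod_range_succ, Finset.prod_range_succ,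
      ← nw]
    linear_combination ω ^ i * h1

lemma nw_of_lt (ω : ℂ) {i j : ℕ} (h : j < i) : nw ω i (ω ^ j) = 0 :=
  Finset.prod_eq_zero (Finset.mem_range.2 h) (sub_self _)

lemma qf_ne_zero {ω : ℂ} {q : ℕ} (hω : IsPrimitiveRoot ω q) {n : ℕ} (hn : n < q) : qf ω n ≠ 0 := by
  refine Finset.prod_ne_zero_iff.2 fun l hl => sub_ne_zero.2 ?_
  have := Finset.mem_range.1 hl
  exact hω.pow_ne_one_of_pos_of_lt (by omega) (by omega)

lemma dft_factor {ω : ℂ} {q : ℕ} (hω : IsPrimitiveRoot ω q) :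
    dft ω q = diagonal (fun j : Fin q => qf ω j) * toep (PowerSeries.mk fun n => (qf ω n)⁻¹) q *
      diagonal (fun i : Fin q => (∏ l ∈ range i, ω ^ l) * (qf ω i)⁻¹) *
      (toep (PowerSeries.mk fun n => (qf ω n)⁻¹) q).submatrix Fin.revPerm Fin.revPerm *
      diagonal (fun j : Fin q => qf ω j) := by
  ext j k
  rw [mul_diagonal, mul_apply, Finset.sum_mul]
  simp only [mul_diagonal, diagonal_mul, dft, of_apply]
  rw [pow_mul, pow_eq_sum_qb ω, Finset.sum_subset (s₂ := range q)
    (by intro i hi; have := k.2; simp only [Finset.mem_range] at hi ⊢; omega)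
    (by intro i _ hi; rw [qb_of_lt ω _ _ (by simpa using hi), zero_mul]),
    ← Fin.sum_univ_eq_sum_range (fun i => qb ω k i * nw ω i (ω ^ j.val))]
  refine Finset.sum_congr rfl fun i _ => ?_
  have e : ((Fin.rev i).val : ℤ) - (Fin.rev k).val = (k.val : ℤ) - i.val := by
    have := i.2; have := k.2
    simp only [Fin.val_rev]; omega
  simp only [toep, submatrix_apply, of_apply, Fin.revPerm_apply, e]
  by_cases hij : i.val ≤ j.val
  · by_cases hik : i.val ≤ k.val
    · rw [cz_sub_of_le _ hij, cz_sub_of_le _ hik, PowerSeries.coeff_mk, PowerSeries.coeff_mk]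
      have h1 := qb_mul ω k i hik
      have h2 := nw_mul ω j i hij
      have n1 := qf_ne_zero hω i.2
      have n2 := qf_ne_zero hω (show j.val - i.val < q by have := j.2; omega)
      have n3 := qf_ne_zero hω (show k.val - i.val < q by have := k.2; omega)
      field_simp
      rw [← h1]
      linear_combination (qb ω k i * qf ω i * qf ω (k - i)) * h2
    · rw [cz_sub_of_lt _ (not_le.1 hik), qb_of_lt ω _ _ (not_le.1 hik)]; simp
  · rw [cz_sub_of_lt _ (not_le.1 hij), nw_of_lt ω (not_le.1 hij)]; simp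

theorem dft_dep {ω : ℂ} {q ℓ : ℕ} (hω : IsPrimitiveRoot ω q) (hq : q ≤ 2 ^ ℓ) :
    Dep 1 (800000 * (ℓ + 1) ^ 2) (dft ω q) := by
  have h := toep_dep (PowerSeries.mk fun n => (qf ω n)⁻¹) (by simp [qf]) hq
  rw [dft_factor hω]
  refine ((((h.mon_mul (Mon.diagonal _)).mul_mon (Mon.diagonal _)).mul
    (h.reindex Fin.revPerm)).mul_mon (Mon.diagonal _)).mono ?_
  nlinarith

end Crest.Agent.R324
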