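import Crest.Agent.R324.Swap

set_option autoImplicit false
set_option linter.unusedSectionVars false
set_option synthInstance.maxSize 2000

/-! The recursion for the Walsh–Hadamard transform. -/

namespace Crest.Agent.R324

open Finset Crest.FourierCircuit

lemma Cost.blocks2 {I J I1 J1 I2 J2 : Type} {L1 : (J1 → ℂ) → I1 → ℂ} {L2 : (J2 → ℂ) → I2 → ℂ}
    {s t : ℝ} (h1 : Cost L1 s) (h2 : Cost L2 t) (φ1 : J1 → J) (φ2 : J2 → J)
    {L : (J → ℂ) → I → ℂ}
    (hL : ∀ i, (∃ i', ∀ x, L x i = L1 (fun j => x (φ1 j)) i') ∨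
      ∃ i', ∀ x, L x i = L2 (fun j => x (φ2 j)) i') : Cost L (s + t) := by
  obtain ⟨n, hn, g1⟩ := Cost.reindex h1 φ1 (L := fun x i => L1 (fun j => x (φ1 j)) i)
    (fun i => ⟨i, fun _ => rfl⟩)
  obtain ⟨m, hm, g2⟩ := Cost.reindex h2 φ2 (L := fun x i => L2 (fun j => x (φ2 j)) i)
    (fun i => ⟨i, fun _ => rfl⟩)
  refine ⟨n + m, by push_cast; linarith, (g1.union g2).mono_right ?_⟩
  rintro _ ⟨i, rfl⟩
  rcases hL i with ⟨i', h⟩ | ⟨i', h⟩
  · exact Or.inl ⟨i', funext fun x => (h x).symm⟩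
  · exact Or.inr ⟨i', funext fun x => (h x).symm⟩

lemma batch_pad {Ω Ω' I J : Type} [Fintype Ω] [Fintype Ω'] {L : (J → ℂ) → I → ℂ} {s t : ℝ}
    (hc : Fintype.card Ω ≤ Fintype.card Ω') (h1 : Cost (batch Ω L) s) (h2 : Cost L t) :
    Cost (batch Ω' L) (s + ((Fintype.card Ω' : ℝ) - Fintype.card Ω) * t) := by
  obtain ⟨r, hr⟩ := Nat.exists_eq_add_of_le hc
  have e : Ω ⊕ Fin r ≃ Ω' := Fintype.equivOfCardEq (by simp [hr])
  have := Cost.blocks2 h1 (h2.batch (Fin r)) (fun p => (e (Sum.inl p.1), p.2))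
    (fun p => (e (Sum.inr p.1), p.2)) (L := batch Ω' L) (by
      rintro ⟨w, i⟩
      obtain ⟨w | w, rfl⟩ := e.surjective w
      · exact Or.inl ⟨(w, i), fun _ => rfl⟩
      · exact Or.inr ⟨(w, i), fun _ => rfl⟩)
  refine this.mono (le_of_eq ?_)
  rw [hr]; simp

/-- the recursion factor -/
noncomputable def lam : ℝ := 10 ^ 6 - 6871402692000000 / 2 ^ 71

lemma HC.step : ∃ g : ℝ, ∀ (k : ℕ) (c : ℝ), HC k c → HC (71 + 10 ^ 6 * k) (lam * c + g) := by
  obtain ⟨g, hg⟩ := swap_cost 100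
  refine ⟨g / 2 ^ 71 + 4 * 71, fun k c hc => ?_⟩
  have h1 := hg k c hc
  have h2 := hc.mul (100 ^ 3)
  have hcard : Fintype.card (Fin 71 → ZMod 2) = 2 ^ 71 := by simp
  have h3 := batch_pad (Ω' := Fin 71 → ZMod 2) (by rw [hcard]; exact card_Om_le) h1 h2
  have h4 := had_add_cost h3 (HC.triv 71)
  have e : (100 : ℕ) ^ 3 = 10 ^ 6 := by norm_num
  rw [e] at h4
  refine Cost.mono h4 ?_
  have hch : ((Nat.choose 100 3 : ℕ) : ℝ) = 161700 := by
    have : Nat.choose 100 3 = 161700 := by decide +kernel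
    rw [this]; norm_num
  rw [hcard, hch, pow_add]
  generalize (Fintype.card (Om 100) : ℝ) = W
  have hp : (0 : ℝ) ≤ 2 ^ (10 ^ 6 * k) := by positivity
  generalize (2 : ℝ) ^ (10 ^ 6 * k) = p at hp ⊢
  have hc0 := hc.nonneg
  have := mul_nonneg hc0 hp
  unfold lam
  simp only [Nat.cast_pow, Nat.cast_ofNat]
  have hN : (0 : ℝ) < 2 ^ 71 := by positivity
  generalize (2 : ℝ) ^ 71 = N at hN ⊢
  have e1 : ((10 ^ 6 - 6871402692000000 / N) * c + (g / N + 4 * 71)) * (N * p) =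
      (10 ^ 6 * N - 6871402692000000) * (c * p) + (g + 4 * 71 * N) * p := by
    field_simp
  rw [e1]
  clear e1 hch hcard e h1 h2 h3 h4 hg hc
  nlinarith

lemma theta_nonneg : 0 ≤ savingExponent :=
  Real.logb_nonneg (by norm_num) (by norm_num)

lemma theta_le_one : savingExponent ≤ 1 := by
  unfold savingExponent
  rw [Real.logb_le_iff_le_rpow (by norm_num) (by norm_num)]
  norm_num

lemma rpow_theta : (10 ^ 6 : ℝ) ^ savingExponent = lam :=
  Real.rpow_logb (by norm_num) (by norm_num) (by norm_num)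

theorem HC.bound : ∃ K : ℝ, 0 ≤ K ∧ ∀ j : ℕ, HC j (K * ((j : ℝ) + 1) ^ savingExponent) := by
  obtain ⟨g, hg⟩ := HC.step
  have hg0 : 0 ≤ g := by simpa using (hg 0 0 HC.zero).nonneg
  have hlam : 2 ≤ lam := by unfold lam; norm_num
  set B : ℝ := g + 4 * 10 ^ 6 with hB
  set K : ℝ := B + 4 * (10 ^ 6 + 71) with hK
  have hB0 : 0 ≤ B := by positivity
  have hK0 : 0 ≤ K := by positivity
  have key : ∀ j : ℕ, 1 ≤ j → HC j (K * (j : ℝ) ^ savingExponent - B) := by
    intro j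
    induction j using Nat.strong_induction_on with
    | _ j ih =>
      intro hj
      by_cases hs : j < 10 ^ 6 + 71
      · refine (HC.triv j).mono ?_
        have h1 : (1 : ℝ) ≤ (j : ℝ) ^ savingExponent :=
          Real.one_le_rpow (by exact_mod_cast hj) theta_nonneg
        have h2 : (j : ℝ) ≤ 10 ^ 6 + 71 := by exact_mod_cast hs.le
        nlinarith
      · obtain ⟨k, r, hr, rfl⟩ : ∃ k r, r < 10 ^ 6 ∧ j = 71 + 10 ^ 6 * k + r :=
          ⟨(j - 71) / 10 ^ 6, (j - 71) % 10 ^ 6, Nat.mod_lt _ (by norm_num), by omega⟩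
        have hk : 1 ≤ k := by omega
        refine ((hg _ _ (ih k (by omega) hk)).add (HC.triv r)).mono ?_
        have h1 : lam * (k : ℝ) ^ savingExponent ≤
            ((71 + 10 ^ 6 * k + r : ℕ) : ℝ) ^ savingExponent := by
          rw [← rpow_theta, ← Real.mul_rpow (by positivity) (by positivity)]
          refine Real.rpow_le_rpow (by positivity) ?_ theta_nonneg
          push_cast
          have : (0 : ℝ) ≤ r := Nat.cast_nonneg r
          linarith
        have h2 : (r : ℝ) ≤ 10 ^ 6 := by exact_mod_cast hr.le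
        have h3 := mul_le_mul_of_nonneg_left h1 hK0
        nlinarith
  refine ⟨K, hK0, fun j => ?_⟩
  rcases Nat.eq_zero_or_pos j with rfl | hj
  · exact HC.zero.mono (by positivity)
  · refine (key j hj).mono ?_
    have := mul_le_mul_of_nonneg_left (Real.rpow_le_rpow (Nat.cast_nonneg j)
      (le_add_of_nonneg_right zero_le_one) theta_nonneg) hK0
    linarith

end Crest.Agent.R324
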