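import Crest.Agent.R324.Dep

set_option autoImplicit false
set_option linter.unusedSectionVars false

/-! In-place shears with borrowed wires. -/

namespace Crest.Agent.R324

open Finset Matrix Kronecker

lemma shear2 : Dep 1 3 (!![1, 0; 1, 1] : Matrix (Fin 2) (Fin 2) ℂ) := by
  have h := Dep.step (Mon.diagonal ![1, 3 / 5]) HB.h2 (Dep.step (Mon.diagonal ![1, -1 / 2]) HB.h2
    (Dep.step (Mon.diagonal ![3 / 2, 1 / 2]) HB.h2 (Dep.mon (Mon.diagonal ![2 / 3, 5 / 6]))))
  convert h using 1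
  ext i j
  fin_cases i <;> fin_cases j <;>
    simp [H2, mul_apply, Fin.sum_univ_two, diagonal_apply] <;> norm_num

variable {I A B : Type} [Fintype I] [DecidableEq I] [Fintype A] [DecidableEq A] [Fintype B]
  [DecidableEq B]

lemma shear_one {e f : A → I} (he : Function.Injective e) (hf : Function.Injective f)
    (hef : ∀ a b, e a ≠ f b) : Dep 1 3 (1 + lift f e 1) := by
  let g : A × Fin 2 → I := fun p => if p.2 = 0 then e p.1 else f p.1
  have hg : Function.Injective g := by
    rintro ⟨a, i⟩ ⟨b, j⟩ h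
    fin_cases i <;> fin_cases j <;> simp [g] at h ⊢
    · exact he h
    · exact hef _ _ h
    · exact hef _ _ h.symm
    · exact hf h
  have h := ((Dep.one (I := A) 0 3).kron shear2).extd hg
  have h1 : (1 : Matrix A A ℂ) ⊗ₖ (!![1, 0; 1, 1] : Matrix (Fin 2) (Fin 2) ℂ) - 1 =
      lift (fun a => (a, 1)) (fun a => (a, 0)) 1 := by
    ext ⟨a, i⟩ ⟨b, j⟩
    rw [lift_apply]
    by_cases hab : a = b
    · subst hab
      fin_cases i <;> fin_cases j <;> simp [one_apply, ite_and]
    · fin_cases i <;> fin_cases j <;> simp [one_apply, hab, ite_and]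
  rw [extd, h1, lift_lift] at h
  exact h

lemma shear_left {e : A → I} {f : B → I} (hf : Function.Injective f) (hef : ∀ a b, e a ≠ f b)
    {r L L' : ℕ} {X : Matrix B A ℂ} {F F' : Matrix B B ℂ} (h : Dep r L (1 + lift f e X))
    (hF : Dep r L' F) (hF' : Dep r L' F') (hFF : F * F' = 1) :
    Dep r (L + 2 * L') (1 + lift f e (F * X)) := by
  have := ((hF.extd hf).mul h).mul (hF'.extd hf)
  convert this using 1
  · ring
  · have e1 : extd f F * lift f e X = lift f e (F * X) := by
      rw [extd, add_mul, one_mul, lift_mul_lift _ _ hf, ← lift_add, Matrix.sub_mul,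
        Matrix.one_mul, add_sub_cancel]
    have e2 : lift f e (F * X) * extd f F' = lift f e (F * X) := by
      rw [extd, mul_add, mul_one, lift_mul_lift_disj _ _ hef, add_zero]
    rw [mul_add, mul_one, e1, add_mul, e2, extd_mul hf, hFF, extd_one]

lemma shear_right {e : A → I} {f : B → I} (he : Function.Injective e) (hef : ∀ a b, e a ≠ f b)
    {r L L' : ℕ} {X : Matrix B A ℂ} {F F' : Matrix A A ℂ} (h : Dep r L (1 + lift f e X))
    (hF : Dep r L' F) (hF' : Dep r L' F') (hFF : F' * F = 1) :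
    Dep r (L + 2 * L') (1 + lift f e (X * F)) := by
  have := ((hF'.extd he).mul h).mul (hF.extd he)
  convert this using 1
  · ring
  · have e1 : extd e F' * lift f e X = lift f e X := by
      rw [extd, add_mul, one_mul, lift_mul_lift_disj _ _ hef, add_zero]
    have e2 : lift f e X * extd e F = lift f e (X * F) := by
      rw [extd, mul_add, mul_one, lift_mul_lift _ _ he, ← lift_add, Matrix.mul_sub,
        Matrix.mul_one, add_sub_cancel]
    rw [mul_add, mul_one, e1, add_mul, e2, extd_mul he, hFF, extd_one]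

lemma shear_add {e : A → I} {f : B → I} (hef : ∀ a b, e a ≠ f b) {r L L' : ℕ}
    {X Y : Matrix B A ℂ} (h : Dep r L (1 + lift f e X)) (h' : Dep r L' (1 + lift f e Y)) :
    Dep r (L + L') (1 + lift f e (X + Y)) := by
  convert h.mul h' using 1
  rw [add_mul, mul_add, mul_add, lift_mul_lift_disj _ _ hef, lift_add]
  simp only [one_mul, mul_one, add_zero]
  abel

lemma split_ne_zero {A : Type} (d : A → ℂ) :
    ∃ u v : A → ℂ, (∀ a, u a ≠ 0) ∧ (∀ a, v a ≠ 0) ∧ d = u + v := by
  classical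
  refine ⟨fun a => if d a = 1 then 2 else 1, fun a => if d a = 1 then -1 else d a - 1,
    fun a => ?_, fun a => ?_, funext fun a => ?_⟩
  · dsimp only; split_ifs <;> norm_num
  · dsimp only; split_ifs with h
    · norm_num
    · exact sub_ne_zero.2 h
  · simp only [Pi.add_apply]; split_ifs with h
    · rw [h]; norm_num
    · ring

lemma shear_diag_left {e : A → I} {f : B → I} (hf : Function.Injective f)
    (hef : ∀ a b, e a ≠ f b) {r L : ℕ} {X : Matrix B A ℂ} (h : Dep r L (1 + lift f e X))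
    (d : B → ℂ) : Dep r (2 * L) (1 + lift f e (diagonal d * X)) := by
  obtain ⟨u, v, hu, hv, rfl⟩ := split_ne_zero d
  have key : ∀ u : B → ℂ, (∀ a, u a ≠ 0) → Dep r L (1 + lift f e (diagonal u * X)) := fun u hu =>
    shear_left hf hef h (Dep.mon (Mon.diagonal u)) (Dep.mon (Mon.diagonal fun a => (u a)⁻¹))
      (by rw [diagonal_mul_diagonal]; simp [hu])
  have := shear_add hef (key u hu) (key v hv)
  rwa [← Matrix.add_mul, diagonal_add, ← two_mul] at this

lemma shear_diag_right {e : A → I} {f : B → I} (he : Function.Injective e)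
    (hef : ∀ a b, e a ≠ f b) {r L : ℕ} {X : Matrix B A ℂ} (h : Dep r L (1 + lift f e X))
    (d : A → ℂ) : Dep r (2 * L) (1 + lift f e (X * diagonal d)) := by
  obtain ⟨u, v, hu, hv, rfl⟩ := split_ne_zero d
  have key : ∀ u : A → ℂ, (∀ a, u a ≠ 0) → Dep r L (1 + lift f e (X * diagonal u)) := fun u hu =>
    shear_right he hef h (Dep.mon (Mon.diagonal u)) (Dep.mon (Mon.diagonal fun a => (u a)⁻¹))
      (by rw [diagonal_mul_diagonal]; simp [hu])
  have := shear_add hef (key u hu) (key v hv)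
  rwa [← Matrix.mul_add, diagonal_add, ← two_mul] at this

lemma Dep.smul {r L : ℕ} {X : Matrix I I ℂ} (h : Dep r L X) (c : ℂ) : Dep r L (c • X) := by
  rw [smul_eq_diagonal_mul]
  exact h.mon_mul (Mon.diagonal _)

lemma shear_circ {j : ℕ} {ω : ℂ} (hω : IsPrimitiveRoot ω (2 ^ j)) {e f : Fin (2 ^ j) → I}
    (he : Function.Injective e) (hf : Function.Injective f) (hef : ∀ a b, e a ≠ f b)
    (d : Fin (2 ^ j) → ℂ) :
    Dep 1 (4 * j + 6) (1 + lift f e (dft ω (2 ^ j) * diagonal d * dft ω⁻¹ (2 ^ j))) := by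
  have h1 := shear_diag_left hf hef (shear_one he hf hef) d
  have hn : ((2 ^ j : ℕ) : ℂ) ≠ 0 := Nat.cast_ne_zero.2 (by positivity)
  have h2 := shear_left hf hef h1 (fft_dep j ω hω) ((fft_dep j ω⁻¹ hω.inv).smul ((2 ^ j : ℕ) : ℂ)⁻¹)
    (by rw [Matrix.mul_smul, dft_mul_inv hω, smul_smul, inv_mul_cancel₀ hn, one_smul])
  have h3 := shear_right he hef h2 (fft_dep j ω⁻¹ hω.inv) ((fft_dep j ω hω).smul ((2 ^ j : ℕ) : ℂ)⁻¹)
    (by rw [Matrix.smul_mul, dft_mul_inv hω, smul_smul, inv_mul_cancel₀ hn, one_smul])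
  rw [Matrix.mul_one] at h3
  convert h3 using 1
  ring

lemma shear_sub {C : Type} [Fintype C] [DecidableEq C]
    {e f : C → I} (he : Function.Injective e) (hf : Function.Injective f)
    (hef : ∀ a b, e a ≠ f b) {r L : ℕ} {K : Matrix C C ℂ} (h : Dep r L (1 + lift f e K))
    {iA : A → C} {iB : B → C} (hA : Function.Injective iA) (hB : Function.Injective iB) :
    Dep r (4 * L) (1 + lift (f ∘ iB) (e ∘ iA) (K.submatrix iB iA)) := by
  classical
  have h1 := shear_diag_right he hef (shear_diag_left hf hef h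
    (fun c => if ∃ b, c = iB b then 1 else 0)) (fun c => if ∃ a, c = iA a then 1 else 0)
  rw [← lift_lift, show 4 * L = 2 * (2 * L) by ring]
  convert h1 using 3
  · ext x y
    rw [mul_diagonal, diagonal_mul]
    split_ifs with h1 h2
    · obtain ⟨b, rfl⟩ := h1
      obtain ⟨a, rfl⟩ := h2
      rw [lift_apply_emb hB hA]; simp
    · rw [lift_apply_of_col _ _ _ (fun a ha => h2 ⟨a, ha⟩)]; simp
    · rw [lift_apply_of_row _ _ _ (fun a ha => h1 ⟨a, ha⟩)]; simp
    · rw [lift_apply_of_row _ _ _ (fun a ha => h1 ⟨a, ha⟩)]; simp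

lemma circ_exists {ω : ℂ} {n : ℕ} (hω : IsPrimitiveRoot ω n) (hn : n ≠ 0) (s : ℕ) (hs : 2 * s ≤ n)
    (g : ℤ → ℂ) : ∃ d : Fin n → ℂ, ∀ x y : Fin n, x.val < s → y.val < s →
      (dft ω n * diagonal d * dft ω⁻¹ n) x y = g ((x.val : ℤ) - y.val) := by
  let c : Fin n → ℂ := fun r => if r.val < s then g r.val else g ((r.val : ℤ) - n)
  let d : Fin n → ℂ := (n : ℂ)⁻¹ • (dft ω⁻¹ n *ᵥ c)
  have hd : dft ω n *ᵥ d = c := by
    simp only [d, mulVec_smul, mulVec_mulVec, dft_mul_inv hω, smul_mulVec, one_mulVec, smul_smul]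
    rw [inv_mul_cancel₀ (by exact_mod_cast hn), one_smul]
  have h0 : ω ≠ 0 := hω.ne_zero hn
  refine ⟨d, fun x y hx hy => ?_⟩
  have key : ∀ r : Fin n, ω ^ x.val = ω ^ r.val * ω ^ y.val →
      (dft ω n * diagonal d * dft ω⁻¹ n) x y = c r := by
    intro r hr
    rw [← hd, mul_apply, mulVec, dotProduct]
    refine Finset.sum_congr rfl fun l _ => ?_
    rw [mul_diagonal]
    simp only [dft, of_apply]
    rw [pow_mul, hr, mul_comm l.val, pow_mul, pow_mul, mul_pow, inv_pow, inv_pow]
    have := pow_ne_zero l.val (pow_ne_zero y.val h0)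
    field_simp
  by_cases hxy : y.val ≤ x.val
  · rw [key ⟨x.val - y.val, by have := x.2; omega⟩ (by rw [← pow_add]; congr 1; simp; omega)]
    simp only [c]
    rw [if_pos (by omega)]
    congr 1; push_cast [hxy]; rfl
  · rw [key ⟨x.val + n - y.val, by have := y.2; omega⟩ (by
      rw [← pow_add, show (x.val + n - y.val) + y.val = x.val + n by have := y.2; omega, pow_add,
        hω.pow_eq_one, mul_one])]
    simp only [c]
    rw [if_neg (by omega)]
    congr 1
    have := y.2
    omega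

lemma exists_pow_two_between (t : ℕ) (ht : 1 ≤ t) : ∃ j, t ≤ 2 ^ j ∧ 2 ^ j < 2 * t := by
  induction t, ht using Nat.le_induction with
  | base => exact ⟨0, by simp, by simp⟩
  | succ t ht ih =>
    obtain ⟨j, h1, h2⟩ := ih
    by_cases h : t + 1 ≤ 2 ^ j
    · exact ⟨j, h, by omega⟩
    · exact ⟨j + 1, by rw [pow_succ]; omega, by rw [pow_succ]; omega⟩

lemma exists_extend {α β γ : Type} [Fintype α] [Fintype β] [Fintype γ] (i : α → β) (g : α → γ)
    (hi : Function.Injective i) (hg : Function.Injective g)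
    (hc : Fintype.card β ≤ Fintype.card γ) :
    ∃ k : β → γ, Function.Injective k ∧ ∀ a, k (i a) = g a := by
  obtain ⟨k⟩ := Function.Embedding.nonempty_of_card_le hc
  obtain ⟨σ, hσ⟩ := Equiv.Perm.exists_extending_pair (fun a => k (i a)) g (k.injective.comp hi) hg
  exact ⟨fun b => σ (k b), σ.injective.comp k.injective, hσ⟩

lemma shear_toep {e : A → I} {f : B → I} (he : Function.Injective e) (hf : Function.Injective f)
    (hef : ∀ a b, e a ≠ f b) {σ : A → ℕ} {τ : B → ℕ} (hσ : Function.Injective σ)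
    (hτ : Function.Injective τ) {s σ0 τ0 ℓ : ℕ} (hs : 1 ≤ s) (hσ0 : ∀ a, σ0 ≤ σ a ∧ σ a < σ0 + s)
    (hτ0 : ∀ b, τ0 ≤ τ b ∧ τ b < τ0 + s) (hI : 8 * s ≤ Fintype.card I)
    (hℓ : Fintype.card I ≤ 2 ^ ℓ) (g : ℤ → ℂ) :
    Dep 1 (16 * ℓ + 24) (1 + lift f e (Matrix.of fun b a => g ((τ b : ℤ) - σ a))) := by
  obtain ⟨j, h1, h2⟩ := exists_pow_two_between (2 * s) (by omega)
  have hjl : j ≤ ℓ := by
    have : 2 ^ j ≤ 2 ^ ℓ := by omega
    exact (Nat.pow_le_pow_iff_right (by norm_num)).1 this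
  let iA : A → Fin (2 ^ j) := fun a => ⟨σ a - σ0, by have := hσ0 a; omega⟩
  let iB : B → Fin (2 ^ j) := fun b => ⟨τ b - τ0, by have := hτ0 b; omega⟩
  have hA : Function.Injective iA := fun a a' h => hσ (by
    have := hσ0 a; have := hσ0 a'; simp only [iA, Fin.mk.injEq] at h; omega)
  have hB : Function.Injective iB := fun a a' h => hτ (by
    have := hτ0 a; have := hτ0 a'; simp only [iB, Fin.mk.injEq] at h; omega)
  obtain ⟨k, hk, hk'⟩ := exists_extend (Sum.map iA iB) (Sum.elim e f) (hA.sumMap hB)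
    (he.sumElim hf hef) (by simp only [Fintype.card_sum, Fintype.card_fin]; omega)
  have hω := Complex.isPrimitiveRoot_exp (2 ^ j) (by positivity)
  obtain ⟨d, hd⟩ := circ_exists hω (by positivity) s h1 (fun z => g (z + τ0 - σ0))
  have h3 := shear_sub (hk.comp Sum.inl_injective) (hk.comp Sum.inr_injective)
    (fun a b h => by simpa using hk h)
    (shear_circ hω (hk.comp Sum.inl_injective) (hk.comp Sum.inr_injective)
      (fun a b h => by simpa using hk h) d) hA hB
  have e1 : (k ∘ Sum.inr) ∘ iB = f := funext fun b => hk' (Sum.inr b)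
  have e2 : (k ∘ Sum.inl) ∘ iA = e := funext fun a => hk' (Sum.inl a)
  rw [e1, e2] at h3
  convert h3.mono (show 4 * (4 * j + 6) ≤ 16 * ℓ + 24 by omega) using 3
  ext b a
  have := hσ0 a
  have := hτ0 b
  rw [submatrix_apply, hd _ _ (by simp only [iB]; omega) (by simp only [iA]; omega), of_apply]
  congr 1
  simp only [iA, iB]
  omega

lemma shear_prod {C : Type} [Fintype C] [DecidableEq C] {e : A → I} {f : B → I} {w : C → I}
    (hw : Function.Injective w) (hef : ∀ a b, e a ≠ f b) (hew : ∀ a c, e a ≠ w c)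
    (hwf : ∀ c b, w c ≠ f b) {r L : ℕ} {X : Matrix B C ℂ} {Y : Matrix C A ℂ}
    (h1 : Dep r L (1 + lift f w X)) (h2 : Dep r L (1 + lift f w (-X)))
    (h3 : Dep r L (1 + lift w e Y)) (h4 : Dep r L (1 + lift w e (-Y))) :
    Dep r (4 * L) (1 + lift f e (X * Y)) := by
  have := ((h4.mul h1).mul h3).mul h2
  rw [lift_neg, lift_neg, ← sub_eq_add_neg, ← sub_eq_add_neg,
    comm_identity _ _ (lift_mul_lift_disj _ _ hwf _ _) (lift_mul_lift_disj _ _ hew _ _)
      (lift_mul_lift_disj _ _ hef _ _), lift_mul_lift _ _ hw] at this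
  convert this using 1
  ring

end Crest.Agent.R324
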