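import Crest.Agent.R324.Base

set_option autoImplicit false
set_option linter.unusedSectionVars false
set_option synthInstance.maxSize 2000

/-! Three shears along the three tensor axes give a signed swap, saving two units per pair. -/

namespace Crest.Agent.R324

open Finset Matrix Kronecker

/-- coordinates of the frame space -/
abbrev Mu (h : ℕ) : Type := Fin h × Fin h × Fin h
/-- data labels -/
abbrev Dat (h : ℕ) : Type := Tri h × Tri h × Tri h
/-- all wires -/
abbrev Om (h : ℕ) : Type := (Dat h ⊕ Dat h) ⊕ (Fin 3 × (Tri h × Tri h) × Aux h)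

variable {h : ℕ}

/-- first bank -/
def gX : Dat h → Om h := fun t => Sum.inl (Sum.inl t)
/-- second bank -/
def gY : Dat h → Om h := fun t => Sum.inl (Sum.inr t)

/-- placement of the wires of one stage -/
def iota (s : Fin 3) (cs : (Tri h × Tri h) × Tri h ≃ Dat h) (p : (Tri h × Tri h) × W0 h) : Om h :=
  Sum.elim (fun S => gX (cs (p.1, S)))
    (Sum.elim (fun T => gY (cs (p.1, T))) fun a => Sum.inr (s, p.1, a)) p.2

lemma iota_inj (s : Fin 3) (cs : (Tri h × Tri h) × Tri h ≃ Dat h) :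
    Function.Injective (iota s cs) := by
  rintro ⟨j, S | S | a⟩ ⟨j', S' | S' | a'⟩ hh <;> simp [iota, gX, gY] at hh ⊢ <;> exact hh

/-- global frames between stages -/
def FR (x y : Dat h → Matrix (Mu h) (Mu h) (ZMod 2)) (n : ℕ) :
    Om h → Matrix (Mu h) (Mu h) (ZMod 2) :=
  Sum.elim (Sum.elim x y) fun p => if p.1.val < n then 1 else 0

lemma lift_equiv_one {A I : Type} [Fintype A] [DecidableEq A] [Fintype I] [DecidableEq I]
    (e : A ≃ I) : lift e e (1 : Matrix A A ℂ) = 1 := by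
  ext a b
  obtain ⟨a, rfl⟩ := e.surjective a
  obtain ⟨b, rfl⟩ := e.surjective b
  rw [lift_apply_emb e.injective e.injective]
  simp [one_apply]

lemma one_kron_lift {J A I : Type} [Fintype J] [DecidableEq J] [Fintype A] [DecidableEq A]
    [Fintype I] [DecidableEq I] (e f : A → I) :
    (1 : Matrix J J ℂ) ⊗ₖ lift e f (1 : Matrix A A ℂ) =
      lift (Prod.map id e) (Prod.map id f) (1 : Matrix (J × A) (J × A) ℂ) := by
  have h1 : ∀ e : A → I, emb (Prod.map (id : J → J) e) = (1 : Matrix J J ℂ) ⊗ₖ emb e := by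
    intro e
    ext ⟨j, w⟩ ⟨j', a⟩
    by_cases h1 : j = j' <;> by_cases h2 : w = e a <;> simp [emb, one_apply, h1, h2]
  unfold lift
  rw [h1, h1, ← kroneckerMap_transpose, ← one_kronecker_one, ← mul_kronecker_mul,
    ← mul_kronecker_mul]
  simp

lemma extd_iota (s : Fin 3) (cs : (Tri h × Tri h) × Tri h ≃ Dat h) :
    extd (iota s cs) ((1 : Matrix (Tri h × Tri h) (Tri h × Tri h) ℂ) ⊗ₖ (1 + lift iY iX 1)) =
      1 + lift gY gX 1 ∧
    extd (iota s cs) ((1 : Matrix (Tri h × Tri h) (Tri h × Tri h) ℂ) ⊗ₖ (1 - lift iX iY 1)) =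
      1 - lift gX gY 1 := by
  have eX : iota s cs ∘ Prod.map id iX = gX ∘ cs := rfl
  have eY : iota s cs ∘ Prod.map id iY = gY ∘ cs := rfl
  constructor
  · rw [extd, kronecker_add, one_kronecker_one, add_sub_cancel_left, one_kron_lift, lift_lift,
      eX, eY, ← lift_lift, lift_equiv_one]
  · have : (1 : Matrix (Tri h × Tri h) (Tri h × Tri h) ℂ) ⊗ₖ (1 - lift (iX (h := h)) iY 1) - 1 =
        -((1 : Matrix (Tri h × Tri h) (Tri h × Tri h) ℂ) ⊗ₖ lift (iX (h := h)) iY 1) := by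
      rw [← one_kronecker_one (m := Tri h × Tri h) (n := W0 h)]
      ext ⟨a, b⟩ ⟨c, d⟩
      simp only [Matrix.sub_apply, kroneckerMap_apply, Matrix.neg_apply]
      ring
    rw [extd, this, lift_neg, one_kron_lift, lift_lift, eX, eY, ← lift_lift, lift_equiv_one,
      sub_eq_add_neg]

lemma stage_glob (s : Fin 3) (cs : (Tri h × Tri h) × Tri h ≃ Dat h)
    (D : Tri h × Tri h → Matrix (Mu h) (Mu h) (ZMod 2))
    (φ : Tri h × Tri h → Matrix (Fin h) (Fin h) (ZMod 2) → Matrix (Mu h) (Mu h) (ZMod 2))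
    (hD : ∀ j, IsPr (D j)) (hmul : ∀ j q q', φ j q * φ j q' = φ j (q * q'))
    (htr : ∀ j q, (φ j q)ᵀ = φ j qᵀ) (hsub : ∀ j q q', φ j q - φ j q' = φ j (q - q'))
    (hDφ : ∀ j q, D j * φ j q = 0) (hrk : ∀ j q, (φ j q).rank ≤ q.rank)
    (x y x' y' : Dat h → Matrix (Mu h) (Mu h) (ZMod 2)) (hxp : ∀ t, IsPr (x t))
    (hyp : ∀ t, IsPr (y t))
    (hx : ∀ j S, x (cs (j, S)) * (D j + φ j (pr S)) = x (cs (j, S)))
    (hy : ∀ j T, y (cs (j, T)) * D j = y (cs (j, T)))
    (hx' : ∀ j S, x' (cs (j, S)) = D j + φ j 1)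
    (hy' : ∀ j T, y' (cs (j, T)) = D j + φ j (1 - pr T)) :
    Net (FR x y s) (FR x' y' (s + 1)) (1 + lift gY gX 1)
        (Fintype.card (Tri h × Tri h) * (h * (2 * h))) ∧
      Net (FR x y s) (FR x' y' (s + 1)) (1 - lift gX gY 1)
        (Fintype.card (Tri h × Tri h) * (h * (2 * h))) := by
  have hφD : ∀ j q, φ j q * D j = 0 := fun j q => by
    have := congrArg transpose (hDφ j qᵀ)
    rwa [transpose_mul, htr, transpose_transpose, (hD j).1, transpose_zero] at this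
  have hφ0 : ∀ j, φ j 0 = 0 := fun j => by
    have := hsub j 0 0
    rw [sub_self, sub_self] at this
    exact this.symm
  have hprod : ∀ j q q', (D j + φ j q) * (D j + φ j q') = D j + φ j (q * q') := fun j q q' => by
    rw [add_mul, mul_add, mul_add, (hD j).2, hDφ, hφD, hmul, add_zero, zero_add]
  have hpr : ∀ j q, IsPr q → IsPr (D j + φ j q) := fun j q hq =>
    ⟨by rw [transpose_add, (hD j).1, htr, hq.1], by rw [hprod, hq.2]⟩
  have hle : ∀ j q q', PLe q q' → PLe (D j + φ j q) (D j + φ j q') := fun j q q' hq =>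
    ⟨hpr j q hq.1, hpr j q' hq.2.1, by rw [hprod, hq.2.2]⟩
  have hrk' : ∀ j q q', ((D j + φ j q) - (D j + φ j q')).rank ≤ (q - q').rank := fun j q q' => by
    rw [add_sub_add_left_eq_sub, hsub]; exact hrk _ _
  have key : ∀ G e, Net (P1 h) (P6 h) G e → Net (FR x y s) (FR x' y' (s + 1))
      (extd (iota s cs) ((1 : Matrix (Tri h × Tri h) (Tri h × Tri h) ℂ) ⊗ₖ G))
      (Fintype.card (Tri h × Tri h) * e) := by
    intro G e hG
    refine (hG.push (fun j q => D j + φ j q) hle hrk').stage (iota_inj s cs) _ _ ?_ ?_ ?_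
    · rintro ⟨j, S | T | a | i⟩
      · exact ⟨hxp _, hpr _ _ (pr_isPr _), hx j S⟩
      · refine ⟨hyp _, hpr _ _ IsPr.zero, ?_⟩
        change y (cs (j, T)) * (D j + φ j 0) = y (cs (j, T))
        rw [hφ0, add_zero, hy]
      · have : FR x y s (iota s cs (j, Sum.inr (Sum.inr (Sum.inl a)))) = 0 := by simp [FR, iota]
        rw [this]
        exact (hpr _ _ IsPr.zero).zero_le
      · have : FR x y s (iota s cs (j, Sum.inr (Sum.inr (Sum.inr i)))) = 0 := by simp [FR, iota]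
        rw [this]
        exact (hpr _ _ IsPr.zero).zero_le
    · rintro ⟨j, S | T | a | i⟩
      · change PLe _ (x' (cs (j, S)))
        rw [hx']
        exact (hpr _ _ IsPr.one).le_refl
      · change PLe _ (y' (cs (j, T)))
        rw [hy']
        exact (hpr _ _ (pr_isPr _).one_sub).le_refl
      · have : FR x' y' (s + 1) (iota s cs (j, Sum.inr (Sum.inr (Sum.inl a)))) = 1 := by
          simp [FR, iota]
        rw [this]
        exact (hpr _ _ IsPr.one).le_one
      · have : FR x' y' (s + 1) (iota s cs (j, Sum.inr (Sum.inr (Sum.inr i)))) = 1 := by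
          simp [FR, iota]
        rw [this]
        exact (hpr _ _ IsPr.one).le_one
    · rintro ((t | t) | ⟨s', j, a⟩) hw
      · obtain ⟨⟨j, S⟩, rfl⟩ := cs.surjective t
        exact absurd rfl (hw (j, Sum.inl S))
      · obtain ⟨⟨j, S⟩, rfl⟩ := cs.surjective t
        exact absurd rfl (hw (j, Sum.inr (Sum.inl S)))
      · have hs : s' ≠ s := by
          rintro rfl
          exact hw (j, Sum.inr (Sum.inr a)) rfl
        have : s'.val ≠ s.val := fun h => hs (Fin.ext h)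
        simp only [FR, Sum.elim_inr]
        congr 1
        apply propext
        omega
  rw [← (extd_iota s cs).1, ← (extd_iota s cs).2]
  exact ⟨key _ _ base_both.1, key _ _ base_both.2⟩

/-- triple Kronecker product -/
def K3 (a b c : Matrix (Fin h) (Fin h) (ZMod 2)) : Matrix (Mu h) (Mu h) (ZMod 2) := a ⊗ₖ (b ⊗ₖ c)

lemma K3_mul (a b c a' b' c' : Matrix (Fin h) (Fin h) (ZMod 2)) :
    K3 a b c * K3 a' b' c' = K3 (a * a') (b * b') (c * c') := by
  simp only [K3, mul_kronecker_mul]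

lemma K3_tr (a b c : Matrix (Fin h) (Fin h) (ZMod 2)) : (K3 a b c)ᵀ = K3 aᵀ bᵀ cᵀ := by
  ext ⟨i, j, k⟩ ⟨i', j', k'⟩; simp [K3]

lemma K3_sub1 (a a' b c : Matrix (Fin h) (Fin h) (ZMod 2)) :
    K3 (a - a') b c = K3 a b c - K3 a' b c := by
  ext ⟨i, j, k⟩ ⟨i', j', k'⟩; simp [K3, sub_mul]

lemma K3_sub2 (a b b' c : Matrix (Fin h) (Fin h) (ZMod 2)) :
    K3 a (b - b') c = K3 a b c - K3 a b' c := by
  ext ⟨i, j, k⟩ ⟨i', j', k'⟩; simp [K3, sub_mul, mul_sub]

lemma K3_sub3 (a b c c' : Matrix (Fin h) (Fin h) (ZMod 2)) :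
    K3 a b (c - c') = K3 a b c - K3 a b c' := by
  ext ⟨i, j, k⟩ ⟨i', j', k'⟩; simp [K3, mul_sub]

lemma K3_one : K3 (h := h) 1 1 1 = 1 := by simp [K3]

lemma K3_isPr {a b c : Matrix (Fin h) (Fin h) (ZMod 2)} (ha : IsPr a) (hb : IsPr b)
    (hc : IsPr c) : IsPr (K3 a b c) :=
  ⟨by rw [K3_tr, ha.1, hb.1, hc.1], by rw [K3_mul, ha.2, hb.2, hc.2]⟩

lemma rank_weighted_le {μ ν : Type} [Fintype μ] [DecidableEq μ] [Fintype ν]
    (q : Matrix ν ν (ZMod 2)) (π : μ → ν) (w : μ → ZMod 2) (M : Matrix μ μ (ZMod 2))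
    (hM : ∀ i j, M i j = w i * q (π i) (π j) * w j) : M.rank ≤ q.rank := by
  have : M = diagonal w * q.submatrix π π * diagonal w := by
    ext i j; simp [hM, diagonal_mul, mul_diagonal]
  rw [this]
  exact (rank_mul_le_left _ _).trans ((rank_mul_le_right _ _).trans (rank_submatrix_le _ _ _))

lemma K3_pr_rank (t : Dat h) : 1 ≤ (K3 (pr t.1) (pr t.2.1) (pr t.2.2)).rank := by
  obtain ⟨a, b, c⟩ := t
  have hne : ∀ S : Tri h, ∃ i, pr S i i = 1 := fun S => by
    obtain ⟨i, hi⟩ : S.1.Nonempty := Finset.card_pos.1 (by rw [S.2]; norm_num)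
    exact ⟨i, by simp [pr, vecMulVec_apply, ind, hi]⟩
  obtain ⟨i, hi⟩ := hne a
  obtain ⟨j, hj⟩ := hne b
  obtain ⟨k, hk⟩ := hne c
  have h1 := rank_submatrix_le (K3 (pr a) (pr b) (pr c)) (fun _ : Unit => (i, j, k))
    (fun _ : Unit => (i, j, k))
  have h2 : (K3 (pr a) (pr b) (pr c)).submatrix (fun _ : Unit => (i, j, k))
      (fun _ : Unit => (i, j, k)) = 1 := by
    ext u v; simp [K3, hi, hj, hk]
  rw [h2, rank_one] at h1
  simpa using h1

/-- frames -/
def x0 (t : Dat h) : Matrix (Mu h) (Mu h) (ZMod 2) := K3 (pr t.1) (pr t.2.1) (pr t.2.2)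

/-- the signed swap -/
noncomputable def swapG (h : ℕ) : Matrix (Om h) (Om h) ℂ :=
  (1 + lift gY gX 1) * ((1 - lift gX gY 1) * (1 + lift gY gX 1))

theorem swap_net : Net (FR (x0 (h := h)) (fun _ => 0) 0) (FR (fun _ => 1) (fun t => 1 - x0 t) 3)
    (swapG h) (3 * (Fintype.card (Tri h × Tri h) * (h * (2 * h)))) := by
  have pp : ∀ S : Tri h, pr S * pr S = pr S := fun S => (pr_isPr S).2
  have pt : ∀ S : Tri h, (pr S)ᵀ = pr S := fun S => (pr_isPr S).1
  let c0 : (Tri h × Tri h) × Tri h ≃ Dat h :=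
    ⟨fun p => (p.2, p.1.1, p.1.2), fun t => ((t.2.1, t.2.2), t.1), fun _ => rfl, fun _ => rfl⟩
  let c1 : (Tri h × Tri h) × Tri h ≃ Dat h :=
    ⟨fun p => (p.1.1, p.2, p.1.2), fun t => ((t.1, t.2.2), t.2.1), fun _ => rfl, fun _ => rfl⟩
  let c2 : (Tri h × Tri h) × Tri h ≃ Dat h :=
    ⟨fun p => (p.1.1, p.1.2, p.2), fun t => ((t.1, t.2.1), t.2.2), fun _ => rfl, fun _ => rfl⟩
  have s0 := (stage_glob 0 c0 (fun _ => 0) (fun j q => K3 q (pr j.1) (pr j.2))
    (fun _ => IsPr.zero) (fun j q q' => by rw [K3_mul, pp, pp]) (fun j q => by rw [K3_tr, pt, pt])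
    (fun j q q' => by rw [K3_sub1]) (fun j q => by simp)
    (fun j q => rank_weighted_le q (fun i => i.1) (fun i => ind j.1 i.2.1 * ind j.2 i.2.2) _
      (by rintro ⟨a, b, c⟩ ⟨a', b', c'⟩; simp [K3, pr, vecMulVec_apply]; ring))
    x0 (fun _ => 0) (fun t => K3 1 (pr t.2.1) (pr t.2.2))
    (fun t => K3 (1 - pr t.1) (pr t.2.1) (pr t.2.2))
    (fun t => K3_isPr (pr_isPr _) (pr_isPr _) (pr_isPr _)) (fun _ => IsPr.zero)
    (fun j S => by simp [x0, c0, K3_mul, pp]) (fun j T => by simp)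
    (fun j S => by simp [c0]) (fun j S => by simp [c0])).1
  have s1 := (stage_glob 1 c1 (fun j => K3 (1 - pr j.1) 1 (pr j.2))
    (fun j q => K3 (pr j.1) q (pr j.2))
    (fun _ => K3_isPr (pr_isPr _).one_sub IsPr.one (pr_isPr _))
    (fun j q q' => by rw [K3_mul, pp, pp]) (fun j q => by rw [K3_tr, pt, pt])
    (fun j q q' => by rw [K3_sub2])
    (fun j q => by rw [K3_mul, sub_mul, one_mul, pp, K3_sub1, sub_self])
    (fun j q => rank_weighted_le q (fun i => i.2.1) (fun i => ind j.1 i.1 * ind j.2 i.2.2) _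
      (by rintro ⟨a, b, c⟩ ⟨a', b', c'⟩; simp [K3, pr, vecMulVec_apply]; ring))
    (fun t => K3 1 (pr t.2.1) (pr t.2.2)) (fun t => K3 (1 - pr t.1) (pr t.2.1) (pr t.2.2))
    (fun t => K3 1 1 (pr t.2.2)) (fun t => K3 1 1 (pr t.2.2) - x0 t)
    (fun t => K3_isPr IsPr.one (pr_isPr _) (pr_isPr _))
    (fun t => K3_isPr (pr_isPr _).one_sub (pr_isPr _) (pr_isPr _))
    (fun j S => by simp [c1, mul_add, mul_sub, K3_mul, pp, K3_sub1])
    (fun j T => by simp [c1, K3_mul, pp, (pr_isPr _).one_sub.2])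
    (fun j S => by simp [c1, K3_sub1]) (fun j S => by simp [c1, x0, K3_sub1, K3_sub2])).2
  have s2 := (stage_glob 2 c2 (fun j => 1 - K3 (pr j.1) (pr j.2) 1)
    (fun j q => K3 (pr j.1) (pr j.2) q)
    (fun _ => (K3_isPr (pr_isPr _) (pr_isPr _) IsPr.one).one_sub)
    (fun j q q' => by rw [K3_mul, pp, pp]) (fun j q => by rw [K3_tr, pt, pt])
    (fun j q q' => by rw [K3_sub3])
    (fun j q => by rw [sub_mul, one_mul, K3_mul, pp, pp, one_mul, sub_self])
    (fun j q => rank_weighted_le q (fun i => i.2.2) (fun i => ind j.1 i.1 * ind j.2 i.2.1) _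
      (by rintro ⟨a, b, c⟩ ⟨a', b', c'⟩; simp [K3, pr, vecMulVec_apply]; ring))
    (fun t => K3 1 1 (pr t.2.2)) (fun t => K3 1 1 (pr t.2.2) - x0 t)
    (fun _ => 1) (fun t => 1 - x0 t)
    (fun t => K3_isPr IsPr.one IsPr.one (pr_isPr _))
    (fun t => PLe.isPr_sub ⟨K3_isPr (pr_isPr _) (pr_isPr _) (pr_isPr _),
      K3_isPr IsPr.one IsPr.one (pr_isPr _), by simp [x0, K3_mul, pp]⟩)
    (fun j S => by simp [c2, mul_add, mul_sub, K3_mul, pp])
    (fun j T => by simp [c2, x0, mul_sub, sub_mul, K3_mul, pp])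
    (fun j S => by simp) (fun j S => by simp [c2, x0, K3_sub3])).1
  have := (s0.comp s1).comp s2
  rw [show ∀ a : ℕ, 3 * a = a + a + a from fun a => by ring]
  exact this

lemma gX_inj : Function.Injective (gX (h := h)) := fun a b hab => by simpa [gX] using hab
lemma gY_inj : Function.Injective (gY (h := h)) := fun a b hab => by simpa [gY] using hab

lemma swap_expand {R : Type} [Ring R] (a b : R) : (1 + a) * ((1 - b) * (1 + a)) =
    1 + a - b - b * a - a * b + a + a * a - a * (b * a) := by noncomm_ring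

lemma swap_inv_aux {R : Type} [Ring R] (a b : R) (ha : a * a = 0) (hb : b * b = 0) :
    ((1 - a) * (1 + b) * (1 - a)) * ((1 + a) * ((1 - b) * (1 + a))) = 1 := by
  have e1 : (1 - a) * (1 + a) = 1 := by
    rw [sub_mul, mul_add, mul_add, ha]; simp
  have e2 : (1 + b) * (1 - b) = 1 := by
    rw [add_mul, mul_sub, mul_sub, hb]; simp
  calc _ = (1 - a) * ((1 + b) * (((1 - a) * (1 + a)) * (1 - b))) * (1 + a) := by
        simp only [mul_assoc]
    _ = 1 := by rw [e1, one_mul, e2, mul_one, e1]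

lemma swapG_eq : swapG h = 1 + lift gY gX 1 - lift gX gY 1 - lift gX gX 1 - lift gY gY 1 := by
  have h1 : lift (gY (h := h)) gX 1 * lift gY gX 1 = 0 :=
    lift_mul_lift_disj _ _ (by simp [gX, gY]) _ _
  have h2 : lift (gY (h := h)) gX 1 * lift gX gY 1 = lift gY gY 1 := by
    rw [lift_mul_lift _ _ gX_inj, Matrix.one_mul]
  have h3 : lift (gX (h := h)) gY 1 * lift gY gX 1 = lift gX gX 1 := by
    rw [lift_mul_lift _ _ gY_inj, Matrix.one_mul]
  have h4 : lift (gY (h := h)) gX 1 * lift gX gX 1 = lift gY gX 1 := by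
    rw [lift_mul_lift _ _ gX_inj, Matrix.one_mul]
  rw [swapG, swap_expand, h1, h2, h3, h4]
  abel

lemma swapG_inv : ∃ G' : Matrix (Om h) (Om h) ℂ, G' * swapG h = 1 := by
  have h1 : lift (gY (h := h)) gX 1 * lift gY gX 1 = 0 :=
    lift_mul_lift_disj _ _ (by simp [gX, gY]) _ _
  have h2 : lift (gX (h := h)) gY 1 * lift gX gY 1 = 0 :=
    lift_mul_lift_disj _ _ (by simp [gX, gY]) _ _
  exact ⟨_, swap_inv_aux _ _ h1 h2⟩

lemma swapG_supp (w w' : Om h) (h0 : swapG h w w' ≠ 0) :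
    (∃ t, w = gY t ∧ w' = gX t) ∨ (∃ t, w = gX t ∧ w' = gY t) ∨
      ∃ a, w = Sum.inr a ∧ w' = Sum.inr a := by
  have hl : ∀ (e f : Dat h → Om h), lift e f 1 w w' ≠ 0 → ∃ t, w = e t ∧ w' = f t := by
    intro e f hh
    obtain ⟨a, b, h1, h2, h3⟩ := lift_ne_zero hh
    have : a = b := by
      by_contra hab
      exact h3 (one_apply_ne hab)
    subst this
    exact ⟨a, h1, h2⟩
  by_cases h1 : lift gY gX 1 w w' ≠ 0
  · exact Or.inl (hl _ _ h1)
  by_cases h2 : lift gX gY 1 w w' ≠ 0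
  · exact Or.inr (Or.inl (hl _ _ h2))
  push Not at h1 h2
  rw [swapG_eq] at h0
  simp only [Matrix.sub_apply, Matrix.add_apply, h1, h2, add_zero, sub_zero] at h0
  by_cases hw : w = w'
  · subst hw
    rcases w with (t | t) | a
    · exfalso; apply h0
      have e1 := lift_apply_emb (gX_inj (h := h)) gX_inj 1 t t
      have e2 : lift gY gY 1 (gX t) (gX t) = 0 := lift_apply_of_row _ _ _ (by simp [gX, gY])
      change _ - lift gX gX 1 (gX t) (gX t) - lift gY gY 1 (gX t) (gX t) = 0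
      rw [e1, e2]; simp
    · exfalso; apply h0
      have e1 := lift_apply_emb (gY_inj (h := h)) gY_inj 1 t t
      have e2 : lift gX gX 1 (gY t) (gY t) = 0 := lift_apply_of_row _ _ _ (by simp [gX, gY])
      change _ - lift gX gX 1 (gY t) (gY t) - lift gY gY 1 (gY t) (gY t) = 0
      rw [e1, e2]; simp
    · exact Or.inr (Or.inr ⟨a, rfl, rfl⟩)
  · exfalso; apply h0
    have e1 : lift gX gX 1 w w' = 0 := by
      by_contra hh
      obtain ⟨t, rfl, rfl⟩ := hl _ _ hh
      exact hw rfl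
    have e2 : lift gY gY 1 w w' = 0 := by
      by_contra hh
      obtain ⟨t, rfl, rfl⟩ := hl _ _ hh
      exact hw rfl
    rw [e1, e2, one_apply_ne hw]; simp

theorem swap_cost (h : ℕ) : ∃ g : ℝ, ∀ (k : ℕ) (c : ℝ), HC k c →
    Cost (batch (Om h) (had (Fin (h ^ 3 * k))))
      ((((Fintype.card (Om h) : ℝ) * h ^ 3 - 2 * (h.choose 3) ^ 3 + 6 * h ^ 2 * (h.choose 3) ^ 2) * c
        + g) * 2 ^ (h ^ 3 * k)) := by
  obtain ⟨G', hG'⟩ := swapG_inv (h := h)
  have hx0 : ∀ t : Dat h, IsPr (x0 t) := fun t => K3_isPr (pr_isPr _) (pr_isPr _) (pr_isPr _)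
  obtain ⟨g, hg⟩ := (swap_net (h := h)).final hG' (by
      rintro ((t | t) | a)
      · exact hx0 t
      · exact IsPr.zero
      · simpa [FR] using IsPr.zero)
    (by
      rintro ((t | t) | a)
      · exact IsPr.one
      · exact (hx0 t).one_sub
      · simpa [FR] using IsPr.one)
    (by
      intro w w' h0
      rcases swapG_supp w w' h0 with ⟨t, rfl, rfl⟩ | ⟨t, rfl, rfl⟩ | ⟨a, rfl, rfl⟩
      · simp [FR, gX, gY, sub_mul, (hx0 t).2]
      · simp [FR, gX, gY]
      · simp [FR])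
  have hμ : Fintype.card (Mu h) = h ^ 3 := by simp; ring
  have hT : Fintype.card (Tri h) = h.choose 3 := by simp [Fintype.card_finset_len]
  refine ⟨g, fun k c hc => ?_⟩
  have := hg k c hc
  rw [hμ] at this
  refine this.mono (mul_le_mul_of_nonneg_right (add_le_add_left
    (mul_le_mul_of_nonneg_right ?_ hc.nonneg) _) (by positivity))
  have hone : ((1 : Matrix (Mu h) (Mu h) (ZMod 2)).rank : ℝ) = h ^ 3 := by
    rw [rank_one, hμ]; push_cast; ring
  have h1 : ∀ t : Dat h, (1 : ℝ) ≤ (x0 t).rank := fun t => by exact_mod_cast K3_pr_rank t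
  have h2 : ∀ t : Dat h, ((1 - x0 t).rank : ℝ) ≤ h ^ 3 - 1 := fun t => by
    have := (hx0 t).le_one.rank
    rw [← hone, this]
    push_cast
    linarith [h1 t]
  have hD : (Fintype.card (Dat h) : ℝ) = (h.choose 3) ^ 3 := by
    simp only [Fintype.card_prod, hT]; push_cast; ring
  have s1 : ∑ t : Dat h, (1 : ℝ) ≤ ∑ t : Dat h, ((x0 t).rank : ℝ) :=
    Finset.sum_le_sum fun t _ => h1 t
  have s2 : ∑ t : Dat h, ((1 - x0 t).rank : ℝ) ≤ ∑ t : Dat h, ((h : ℝ) ^ 3 - 1) :=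
    Finset.sum_le_sum fun t _ => h2 t
  rw [Finset.sum_const, Finset.card_univ, nsmul_eq_mul, hD] at s1 s2
  have e1 : ∑ w : Om h, ((FR (x0 (h := h)) (fun _ => 0) 0 w).rank : ℝ) =
      ∑ t : Dat h, ((x0 t).rank : ℝ) := by
    simp [FR, Fintype.sum_sum_type]
  have e2 : ∑ w : Om h, ((FR (fun _ => 1) (fun t : Dat h => 1 - x0 t) 3 w).rank : ℝ) =
      (h.choose 3) ^ 3 * h ^ 3 + ∑ t : Dat h, ((1 - x0 t).rank : ℝ) +
        Fintype.card (Fin 3 × (Tri h × Tri h) × Aux h) * h ^ 3 := by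
    simp only [FR, Fintype.sum_sum_type, Sum.elim_inl, Sum.elim_inr, Fin.is_lt, if_true, hone,
      Finset.sum_const, Finset.card_univ, nsmul_eq_mul, hD]
  have e3 : (Fintype.card (Om h) : ℝ) =
      2 * (h.choose 3) ^ 3 + Fintype.card (Fin 3 × (Tri h × Tri h) × Aux h) := by
    rw [Fintype.card_sum, Fintype.card_sum]; push_cast; rw [hD]; ring
  rw [e1, e2, e3, Fintype.card_prod (Tri h) (Tri h), hT]
  push_cast
  nlinarith

lemma card_Om_le : Fintype.card (Om 100) ≤ 2 ^ 71 := by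
  have hT : Fintype.card (Tri 100) = 161700 := by
    rw [Fintype.card_finset_len, Fintype.card_fin]; decide +kernel
  have hO : Fintype.card (Orth 100) ≤ 161700 * 161700 := by
    refine (Fintype.card_subtype_le _).trans ?_
    rw [Fintype.card_prod, hT]
  simp only [Fintype.card_sum, Fintype.card_prod, hT, Fintype.card_fin]
  generalize Fintype.card (Orth 100) = a at hO ⊢
  nlinarith

end Crest.Agent.R324
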