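import Crest.Agent.R324.Shear

set_option autoImplicit false
set_option linter.unusedSectionVars false

/-! Triangular Toeplitz matrices in place with `O(log² n)` layers. -/

namespace Crest.Agent.R324

open Finset Matrix Kronecker

lemma sum_emb_fiber {A K : Type} [Fintype A] [DecidableEq A] [Fintype K] [DecidableEq K]
    (χ : A → K) : ∑ k, emb (Subtype.val : {a // χ a = k} → A) *
      (emb (Subtype.val : {a // χ a = k} → A))ᵀ = 1 := by
  ext a b
  simp only [Matrix.sum_apply, mul_apply, transpose_apply, emb, of_apply]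
  rw [Fintype.sum_fiberwise χ (fun x => (if a = x then (1 : ℂ) else 0) * if b = x then 1 else 0)]
  by_cases hab : a = b
  · subst hab; simp
  · simp [one_apply_ne hab, hab]

lemma emb_tr_mul_mul_emb {A B A' B' : Type} [Fintype A] [DecidableEq A] [Fintype B] [DecidableEq B]
    (e : A' → A) (f : B' → B) (X : Matrix A B ℂ) : (emb e)ᵀ * X * emb f = X.submatrix e f := by
  ext a b
  simp [mul_apply, emb]

lemma lift_mul_fiber {I A B K : Type} [Fintype I] [DecidableEq I] [Fintype A] [DecidableEq A]
    [Fintype B] [DecidableEq B] [Fintype K] [DecidableEq K] (e : A → I) (f : B → I)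
    (χA : A → K) (χB : B → K) (X : Matrix B A ℂ) (Y : Matrix A A ℂ) :
    lift f e (X * Y) = ∑ c : K × K × K,
      lift (f ∘ (Subtype.val : {b // χB b = c.1} → B)) (e ∘ (Subtype.val : {a // χA a = c.2.2} → A))
        (X.submatrix (Subtype.val : {b // χB b = c.1} → B) (Subtype.val : {a // χA a = c.2.1} → A) *
          Y.submatrix (Subtype.val : {a // χA a = c.2.1} → A)
            (Subtype.val : {a // χA a = c.2.2} → A)) := by
  have : X * Y = (1 : Matrix B B ℂ) * X * (1 : Matrix A A ℂ) * Y * (1 : Matrix A A ℂ) := by simp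
  conv_lhs => rw [this, ← sum_emb_fiber χA, ← sum_emb_fiber χB]
  simp only [Fintype.sum_prod_type, lift, Matrix.sum_mul, Matrix.mul_sum, ← emb_comp,
    ← emb_tr_mul_mul_emb, transpose_mul, Matrix.mul_assoc]
  have key : ∀ F : K → K → K → Matrix I I ℂ,
      ∑ c, ∑ b, ∑ a, F a b c = ∑ a, ∑ b, ∑ c, F a b c := fun F => by
    rw [Finset.sum_comm]
    simp_rw [Finset.sum_comm (f := fun c a => F a _ c)]
    rw [Finset.sum_comm]
  exact key _

lemma card_le_of_label {A : Type} [Fintype A] {σ : A → ℕ} (hσ : Function.Injective σ) {σ0 s : ℕ}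
    (h : ∀ a, σ0 ≤ σ a ∧ σ a < σ0 + s) : Fintype.card A ≤ s := by
  have := Fintype.card_le_of_injective (fun a => (⟨σ a - σ0, by have := h a; omega⟩ : Fin s))
    (fun a a' haa => hσ (by
      have := h a; have := h a'; simp only [Fin.mk.injEq] at haa; omega))
  simpa using this

lemma block_shear {a b ℓ : ℕ} (hℓ : a + b ≤ 2 ^ ℓ) (g1 g2 : ℤ → ℂ) :
    Dep 1 (400000 * (ℓ + 1)) (1 + lift (Sum.inr : Fin b → Fin a ⊕ Fin b) Sum.inl
      ((Matrix.of fun (i : Fin b) (l : Fin a) => g1 ((i.val : ℤ) - l.val)) *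
        (Matrix.of fun (l : Fin a) (j : Fin a) => g2 ((l.val : ℤ) - j.val)))) := by
  by_cases hab : a + b < 8
  · generalize ((Matrix.of fun (i : Fin b) (l : Fin a) => g1 ((i.val : ℤ) - l.val)) *
        (Matrix.of fun (l : Fin a) (j : Fin a) => g2 ((l.val : ℤ) - j.val))) = M
    have h1 := Dep.sum_nil (Finset.univ : Finset (Fin b × Fin a)) (r := 1) (L := 2 * 3)
      (fun p => lift (fun _ : Unit => (Sum.inr p.1 : Fin a ⊕ Fin b)) (fun _ : Unit => Sum.inl p.2)
        (diagonal (fun _ => M p.1 p.2) * 1))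
      (fun p q => lift_mul_lift_disj _ _ (by simp) _ _)
      (fun p _ => shear_diag_left (Function.injective_of_subsingleton _) (by simp)
        (shear_one (Function.injective_of_subsingleton _) (Function.injective_of_subsingleton _)
          (by simp)) _)
    convert h1.mono (L' := 400000 * (ℓ + 1)) (by
      simp only [Finset.card_univ, Fintype.card_prod, Fintype.card_fin]
      have : b * a ≤ 7 * 7 := Nat.mul_le_mul (by omega) (by omega)
      omega) using 2
    ext w w'
    simp [Matrix.sum_apply, lift_apply, Fintype.sum_prod_type]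
  · obtain ⟨s, hs⟩ : ∃ s, s = (a + b) / 8 := ⟨_, rfl⟩
    have hs1 : 1 ≤ s := by omega
    have hlt : ∀ i, i < a + b → i / s < 16 := fun i hi => by
      rw [Nat.div_lt_iff_lt_mul hs1]; omega
    let χA : Fin a → Fin 16 := fun i => ⟨i.val / s, hlt _ (by omega)⟩
    let χB : Fin b → Fin 16 := fun i => ⟨i.val / s, hlt _ (by omega)⟩
    have hrange : ∀ i c : ℕ, i / s = c → c * s ≤ i ∧ i < c * s + s := by
      rintro i _ rfl
      exact ⟨Nat.div_mul_le_self _ _, by rw [mul_comm]; exact Nat.lt_mul_div_succ _ hs1 |>.trans_eq (by ring)⟩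
    have hA : ∀ (c : Fin 16) (x : {i // χA i = c}), c.val * s ≤ x.1.val ∧ x.1.val < c.val * s + s :=
      fun c x => hrange _ _ (congrArg Fin.val x.2)
    have hB : ∀ (c : Fin 16) (x : {i // χB i = c}), c.val * s ≤ x.1.val ∧ x.1.val < c.val * s + s :=
      fun c x => hrange _ _ (congrArg Fin.val x.2)
    have iA : ∀ c : Fin 16, Function.Injective (fun x : {i // χA i = c} => x.1.val) :=
      fun c => Fin.val_injective.comp Subtype.val_injective
    have iB : ∀ c : Fin 16, Function.Injective (fun x : {i // χB i = c} => x.1.val) :=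
      fun c => Fin.val_injective.comp Subtype.val_injective
    have hI : 8 * s ≤ Fintype.card (Fin a ⊕ Fin b) := by simp; omega
    have hI' : Fintype.card (Fin a ⊕ Fin b) ≤ 2 ^ ℓ := by simpa using hℓ
    rw [lift_mul_fiber _ _ χA χB]
    refine (Dep.sum_nil _ (L := 4 * (16 * ℓ + 24)) _
      (fun p q => lift_mul_lift_disj _ _ (by simp) _ _) ?_).mono (by simp; omega)
    rintro ⟨c1, c2, c3⟩ _
    have he : Function.Injective ((Sum.inl : Fin a → Fin a ⊕ Fin b) ∘
        (Subtype.val : {i // χA i = c3} → Fin a)) := Sum.inl_injective.comp Subtype.val_injective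
    have hf : Function.Injective ((Sum.inr : Fin b → Fin a ⊕ Fin b) ∘
        (Subtype.val : {i // χB i = c1} → Fin b)) := Sum.inr_injective.comp Subtype.val_injective
    obtain ⟨k, hk, hk'⟩ := exists_extend
      (Sum.inl : _ → ({i // χA i = c3} ⊕ {i // χB i = c1}) ⊕ {i // χA i = c2})
      (Sum.elim _ _) Sum.inl_injective (he.sumElim hf (by simp)) (by
        have h1 := card_le_of_label (iA c3) (hA c3)
        have h2 := card_le_of_label (iB c1) (hB c1)
        have h3 := card_le_of_label (iA c2) (hA c2)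
        rw [Fintype.card_sum, Fintype.card_sum]
        omega)
    have hw : Function.Injective (k ∘ Sum.inr) := hk.comp Sum.inr_injective
    have hew : ∀ x y, ((Sum.inl : Fin a → Fin a ⊕ Fin b) ∘
        (Subtype.val : {i // χA i = c3} → Fin a)) x ≠ (k ∘ Sum.inr) y := fun x y h => by
      have := hk ((hk' (Sum.inl x)).trans h)
      simp at this
    have hwf : ∀ y x, (k ∘ Sum.inr) y ≠ ((Sum.inr : Fin b → Fin a ⊕ Fin b) ∘
        (Subtype.val : {i // χB i = c1} → Fin b)) x := fun y x h => by
      have := hk ((hk' (Sum.inr x)).trans h.symm)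
      simp at this
    exact shear_prod hw (by simp) hew hwf
      (shear_toep hw hf hwf (iA c2) (iB c1) hs1 (hA c2) (hB c1) hI hI' g1)
      (shear_toep hw hf hwf (iA c2) (iB c1) hs1 (hA c2) (hB c1) hI hI' (-g1))
      (shear_toep he hw hew (iA c3) (iA c2) hs1 (hA c3) (hA c2) hI hI' g2)
      (shear_toep he hw hew (iA c3) (iA c2) hs1 (hA c3) (hA c2) hI hI' (-g2))

/-- Coefficients of a power series extended by zero to negative indices. -/
noncomputable def cz (g : PowerSeries ℂ) (z : ℤ) : ℂ :=
  if 0 ≤ z then PowerSeries.coeff z.toNat g else 0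

/-- Lower triangular Toeplitz matrix of a power series. -/
noncomputable def toep (g : PowerSeries ℂ) (n : ℕ) : Matrix (Fin n) (Fin n) ℂ :=
  Matrix.of fun i j => cz g ((i.val : ℤ) - j.val)

lemma cz_sub_of_le (g : PowerSeries ℂ) {i j : ℕ} (h : j ≤ i) :
    cz g ((i : ℤ) - j) = PowerSeries.coeff (i - j) g := by
  rw [cz, if_pos (by omega)]
  congr 2; omega

lemma cz_sub_of_lt (g : PowerSeries ℂ) {i j : ℕ} (h : i < j) : cz g ((i : ℤ) - j) = 0 := by
  rw [cz, if_neg (by omega)]

lemma toep_mul (g g' : PowerSeries ℂ) (n : ℕ) : toep g n * toep g' n = toep (g' * g) n := by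
  ext i j
  simp only [toep, mul_apply, of_apply]
  rw [Fin.sum_univ_eq_sum_range (fun l => cz g ((i.val : ℤ) - l) * cz g' ((l : ℤ) - j.val))]
  by_cases hij : j.val ≤ i.val
  · rw [cz_sub_of_le _ hij, PowerSeries.coeff_mul,
      Finset.Nat.sum_antidiagonal_eq_sum_range_succ
        (fun x y => PowerSeries.coeff x g' * PowerSeries.coeff y g),
      ← Finset.sum_subset (s₁ := Finset.Ico j.val (i.val + 1)), Finset.sum_Ico_eq_sum_range,
      show i.val + 1 - j.val = (i.val - j.val).succ by omega]
    · refine Finset.sum_congr rfl fun k hk => ?_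
      have hk := Finset.mem_range.1 hk
      rw [cz_sub_of_le _ (by omega), cz_sub_of_le _ (by omega), mul_comm]
      congr 3 <;> omega
    · intro l hl
      have := i.2
      simp only [Finset.mem_Ico, Finset.mem_range] at hl ⊢
      omega
    · intro l _ hl
      simp only [Finset.mem_Ico, not_and_or, not_le, not_lt] at hl
      rcases hl with hl | hl
      · rw [cz_sub_of_lt g' hl, mul_zero]
      · rw [cz_sub_of_lt g (by omega), zero_mul]
  · rw [cz_sub_of_lt _ (by omega)]
    refine Finset.sum_eq_zero fun l _ => ?_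
    by_cases hl : l < j.val
    · rw [cz_sub_of_lt g' hl, mul_zero]
    · rw [cz_sub_of_lt g (by omega), zero_mul]

lemma toep_one (n : ℕ) : toep 1 n = 1 := by
  ext i j
  simp only [toep, of_apply]
  rcases lt_trichotomy i.val j.val with h | h | h
  · rw [cz_sub_of_lt _ h, one_apply_ne (by intro e; rw [e] at h; omega)]
  · rw [Fin.ext h]; simp [cz]
  · rw [cz_sub_of_le _ h.le, one_apply_ne (by intro e; rw [e] at h; omega), PowerSeries.coeff_one,
      if_neg (by omega)]

lemma toep_dep_aux (g : PowerSeries ℂ) (hg : PowerSeries.constantCoeff g = 1) (ℓ t : ℕ) :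
    ∀ n, n ≤ 2 ^ t → n ≤ 2 ^ ℓ → Dep 1 (400000 * (ℓ + 1) * t) (toep g n) := by
  induction t with
  | zero =>
    intro n hn _
    have : toep g n = 1 := by
      ext i j
      have hi := i.2
      have hj := j.2
      have : i = j := Fin.ext (by omega)
      subst this
      simp [toep, cz, hg]
    rw [this]
    exact Dep.one _ _
  | succ t ih =>
    intro n hn hn'
    obtain ⟨a, b, rfl, ha, hb⟩ : ∃ a b, n = a + b ∧ a ≤ 2 ^ t ∧ b ≤ 2 ^ t :=
      ⟨n / 2, n - n / 2, by omega, by omega, by omega⟩
    have h1 := (block_shear hn' (fun z => cz g (z + a)) (cz g⁻¹)).mul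
      ((ih a ha (by omega)).sum (ih b hb (by omega)))
    refine Dep.of_reindex finSumFinEquiv ?_
    convert h1 using 1
    · ring
    · have e1 : ∀ X : Matrix (Fin b) (Fin a) ℂ,
          1 + lift (Sum.inr : Fin b → Fin a ⊕ Fin b) Sum.inl X = fromBlocks 1 0 X 1 := by
        intro X
        ext (i | i) (j | j) <;> simp [lift_apply, one_apply, ite_and]
      have e2 : (Matrix.of fun (l : Fin a) (j : Fin a) => cz g⁻¹ ((l.val : ℤ) - j.val)) =
        toep g⁻¹ a := rfl
      rw [e1, e2, fromBlocks_multiply, Matrix.mul_assoc, toep_mul,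
        PowerSeries.mul_inv_cancel _ (by rw [hg]; exact one_ne_zero), toep_one]
      ext (i | i) (j | j)
      · simp [toep]
      · simp only [toep, submatrix_apply, finSumFinEquiv_apply_left, finSumFinEquiv_apply_right,
          of_apply, Fin.val_castAdd, Fin.val_natAdd, fromBlocks_apply₁₂]
        rw [cz_sub_of_lt _ (by omega)]
        simp
      · simp [toep]
        congr 1; ring
      · simp [toep]

theorem toep_dep (g : PowerSeries ℂ) (hg : PowerSeries.constantCoeff g = 1) {ℓ n : ℕ}
    (hn : n ≤ 2 ^ ℓ) : Dep 1 (400000 * (ℓ + 1) * ℓ) (toep g n) :=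
  toep_dep_aux g hg ℓ ℓ n hn hn

end Crest.Agent.R324
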